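import Vale.Agent.P330.H155.Prog

/-!
# The kit: definitions

The block of registers of one content `u`: register `0` is `u`, register `1 + n * M + m` is the
`m`-th register of the layer `n`.

* letters: `(0, _)` copy, `(1, a)` translation by the generator `a` of `J`, `(2, a)` composition with
  the generator `a` of `Γ`; `ptW w x` is the point at which the word `w` reads;
* `KP`: the tables; `Dsc`: descriptors of layers; `KP.insD`: the instructions of a layer;
* `KP.ds`: the descriptor of every layer; `KP.kit`: the kit.
-/

namespace Vale.Agent.P330.W.H624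

open Finset Vale.Agent.P330.H155

section letters

variable {J Γ F iJ iG : Type*}

/-- The point at which a letter reads. -/
def ptL [AddCommGroup J] [Group Γ] [DistribMulAction Γ J] (sJ : iJ → J) (gG : iG → Γ)
    (dJ : ℕ → iJ) (dG : ℕ → iG) (t : ℕ × ℕ) (x : J) : J :=
  if t.1 = 1 then x + sJ (dJ t.2) else if t.1 = 2 then gG (dG t.2) • x else x

/-- The point at which a word reads: the first letter is the outermost map. -/
def ptW [AddCommGroup J] [Group Γ] [DistribMulAction Γ J] (sJ : iJ → J) (gG : iG → Γ)
    (dJ : ℕ → iJ) (dG : ℕ → iG) (w : List (ℕ × ℕ)) (x : J) : J :=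
  w.foldr (ptL sJ gG dJ dG) x

end letters

/-- The tables of the kit. -/
structure KP (F iJ iG Γ B : Type*) where
  /-- width of the layers -/
  M : ℕ
  /-- number of rounds -/
  κ : ℕ
  /-- length of the words -/
  Lw : ℕ
  /-- number of additive functions -/
  nP : ℕ
  /-- number of translations -/
  nE : ℕ
  /-- the number of the pair `(v, b)` -/
  ix : Γ → B → ℕ
  /-- the generators of `J` -/
  dJ : ℕ → iJ
  /-- the generators of `Γ` -/
  dG : ℕ → iG
  /-- coefficients of the right hand side -/
  cG : ℕ → F
  /-- coefficients of the rounds -/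
  be : ℕ → ℕ → F
  /-- coefficients of the right hand side for the additive function `p` -/
  dp : ℕ → ℕ → ℕ → F
  /-- the index of the word read by the right check -/
  sr : ℕ → ℕ
  /-- words of the translations of the right checks -/
  wz : ℕ → List (ℕ × ℕ)
  /-- words of the translations by the basis -/
  we : ℕ → List (ℕ × ℕ)
  /-- words of the elements of `Γ` -/
  wv : ℕ → List (ℕ × ℕ)

/-- Descriptors of layers. -/
inductive Dsc
  /-- multiples of `u`: the right hand side, or the coefficient `1` -/
  | u0 (c : Bool)
  /-- letter `j` of the word table `t`; source layer, source permuted or not -/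
  | ch (t j n : ℕ) (s : Bool)
  /-- end of a round: right hand side, translated words, words -/
  | comb (nr nc ny : ℕ)
  /-- the right hand side for the additive function `p` -/
  | rhsD (p n : ℕ)
  /-- sum of two layers -/
  | add (n n' : ℕ)
  /-- multiplication by the additive function `p`; the layer of the table -/
  | t2 (p n : ℕ)

namespace KP

section ins

variable {F iJ iG Γ B : Type*} [Zero F] [One F] (P : KP F iJ iG Γ B)

/-- The word tables. -/
def wt (t m : ℕ) : List (ℕ × ℕ) :=
  if t = 0 then P.wz m else if t = 1 then P.we m else if t = 2 then P.wv m else P.we (t - 3)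

/-- The number of a register. -/
def rg (n m : ℕ) : ℕ := 1 + n * P.M + m

/-- The instruction of a letter. -/
def insL (t : ℕ × ℕ) (i : ℕ) : KIns F iJ iG Γ B :=
  if t.1 = 1 then .tr (P.dJ t.2) i else if t.1 = 2 then .gm (P.dG t.2) i else .lin [(1, i)]

/-- The instruction of the `m`-th register of a layer. -/
def insD (m : ℕ) : Dsc → KIns F iJ iG Γ B
  | .u0 c => .lin [(if c then 1 else P.cG m, 0)]
  | .ch t j n s => P.insL ((P.wt t m).getD j (0, 0)) (P.rg n (if s then P.sr m else m))
  | .comb nr nc ny => .lin ((1, P.rg nr m) ::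
      ((List.range P.M).map (fun i => (P.be m i, P.rg nc i)) ++
        (List.range P.M).map fun i => (P.be m i, P.rg ny (P.sr i))))
  | .rhsD p n => .lin ((List.range P.M).map fun i => (P.dp p m i, P.rg n i))
  | .add n n' => .lin [(1, P.rg n m), (1, P.rg n' m)]
  | .t2 p n => .t2 p 0 fun v b => P.rg n (P.ix v b)

end ins

section lay

variable {F iJ iG Γ B : Type*} (P : KP F iJ iG Γ B)

/-- A chain starting at the layer `a`: the letter `j` of the table `t`, source `n`. -/
def chD (a t n : ℕ) (s : Bool) (j : ℕ) : Dsc :=
  if j = 0 then .ch t 0 n s else .ch t j (a + j - 1) false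

/-- The length of a round. -/
def R1 : ℕ := P.Lw + 1

/-- The `i`-th layer of the solution of the system, starting at the layer `a` (after its right
hand side, the layer `a`). -/
def solD (a i : ℕ) : Dsc :=
  if i % P.R1 < P.Lw then
    chD (a + 1 + i / P.R1 * P.R1) 0 (a + i / P.R1 * P.R1) true (i % P.R1)
  else .comb a (a + (i / P.R1 + 1) * P.R1 - 1) (a + i / P.R1 * P.R1)

/-- The `i`-th layer of the sum, starting at the layer `a` (after a copy of `u`). -/
def sumD (a i : ℕ) : Dsc :=
  if i % P.R1 < P.Lw then
    chD (a + 1 + i / P.R1 * P.R1) (3 + i / P.R1) (a + i / P.R1 * P.R1) false (i % P.R1)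
  else .add (a + i / P.R1 * P.R1) (a + (i / P.R1 + 1) * P.R1 - 1)

/-- The number of layers of one solution. -/
def NS : ℕ := 1 + P.κ * P.R1

/-- The start of the translations. -/
def sT : ℕ := P.NS + P.Lw + P.nP * (P.NS + 1)

/-- The start of the sum. -/
def sS : ℕ := P.sT + 1 + P.Lw

/-- The start of the bundle. -/
def sB : ℕ := P.sS + P.NS

/-- The number of layers. -/
def NL : ℕ := P.sB + P.Lw

/-- The descriptor of every layer. -/
def ds (n : ℕ) : Dsc :=
  if n < P.NS then (if n = 0 then .u0 false else P.solD 0 (n - 1))
  else if n < P.NS + P.Lw then chD P.NS 0 (P.NS - 1) true (n - P.NS)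
  else if n < P.sT then
    let p := (n - (P.NS + P.Lw)) / (P.NS + 1)
    let i := (n - (P.NS + P.Lw)) % (P.NS + 1)
    let a := P.NS + P.Lw + p * (P.NS + 1)
    if i = 0 then .rhsD p (P.NS + P.Lw - 1) else if i = P.NS then .t2 p (a + P.NS - 1)
    else P.solD a (i - 1)
  else if n < P.sS then (if n = P.sT then .u0 true else chD (P.sT + 1) 1 P.sT false (n - P.sT - 1))
  else if n < P.sB then (if n = P.sS then .u0 true else P.sumD P.sS (n - P.sS - 1))
  else chD P.sB 2 (P.NS - 1) false (n - P.sB)

end lay

section kit

variable {F iJ iG Γ B : Type*} [Zero F] [One F] (P : KP F iJ iG Γ B)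

/-- **The kit.** -/
def kit : Kit F iJ iG Γ B where
  KL := 1 + P.NL * P.M
  ins k := P.insD (k % P.M) (P.ds (k / P.M))
  iT j := P.rg (P.sT + P.Lw) j
  iM p := P.rg (P.NS + P.Lw + p * (P.NS + 1) + P.NS) 0
  iS := P.rg (P.sB - 1) 0
  iB v b := P.rg (P.NL - 1) (P.ix v b)

end kit

end KP

end Vale.Agent.P330.W.H624
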