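import Vale.Agent.P330.W.H624.Spec

/-!
# Tanner codes on Cayley graphs (bipartite, views stored at the left vertices)

Sites are the elements of `V`.  A word `z : V → B → A` gives every site `v` its left view `z v` and
its right view `rv e z v = fun b => z ((e b).symm v) b` (the symbols on the edges which end in `v`).
`IsWord`: all left views are in `CL`, all right views are in `CR`.

* `word_eq`: distance;
* `link`: a word near a code word `m`, whose checks fail at few sites, is very near `m`;
* `exists_cl`, `subset_cl`, `reg_exact`: one closure set for all registers;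
* `hold`: contraction of one round of decoding (right, then left), for arbitrary garbage or missing
  views on a small set.
-/

namespace Vale.Agent.P330.TAN

open Finset

variable {V B A : Type*} [Fintype V] [Fintype B]

/-- The right view. -/
def rv (e : B → V ≃ V) (z : V → B → A) (v : V) : B → A := fun b => z ((e b).symm v) b

open Classical in
/-- The number of labels where two views differ. -/
noncomputable def hd (x y : B → A) : ℕ := (univ.filter fun b => x b ≠ y b).card

/-- Two different elements of `C` differ at at least `δ |B|` labels. -/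
def Dist (C : Set (B → A)) (δ : ℝ) : Prop :=
  ∀ x ∈ C, ∀ y ∈ C, x ≠ y → δ * Fintype.card B ≤ hd x y

/-- Words of the Tanner code. -/
def IsWord (e : B → V ≃ V) (CL CR : V → Set (B → A)) (z : V → B → A) : Prop :=
  ∀ v, z v ∈ CL v ∧ rv e z v ∈ CR v

/-- Both views, at the vertices of the bipartite graph. -/
def bv (e : B → V ≃ V) (z : V → B → A) (w : Bool × V) : B → A :=
  if w.1 then rv e z w.2 else z w.2

omit [Fintype V] [Fintype B] in
theorem bv_bnb (e : B → V ≃ V) (z : V → B → A) (b : B) (w : Bool × V) :
    bv e z (bnb e b w) b = bv e z w b := by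
  rcases w with ⟨_ | _, v⟩ <;> simp [bv, bnb, rv]

open Classical in
/-- The vertices of the bipartite graph where the views of `z` and `m` differ. -/
noncomputable def err (e : B → V ≃ V) (z m : V → B → A) : Finset (Bool × V) :=
  univ.filter fun w => bv e z w ≠ bv e m w

open Classical in
/-- The sites where `z` and `m` differ. -/
noncomputable def errL (z m : V → B → A) : Finset V := univ.filter fun v => z v ≠ m v

theorem mem_err {e : B → V ≃ V} {z m : V → B → A} {w : Bool × V} :
    w ∈ err e z m ↔ bv e z w ≠ bv e m w := by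
  unfold err
  simp

theorem mem_errL {z m : V → B → A} {v : V} : v ∈ errL z m ↔ z v ≠ m v := by
  unfold errL
  simp

theorem mem_err_false {e : B → V ≃ V} {z m : V → B → A} {v : V} :
    ((false, v) : Bool × V) ∈ err e z m ↔ v ∈ errL z m := by
  rw [mem_err, mem_errL]
  simp [bv]

/-- The local code at a vertex of the bipartite graph. -/
def cd (CL CR : V → Set (B → A)) (w : Bool × V) : Set (B → A) := if w.1 then CR w.2 else CL w.2

/-- The basic property: a wrong vertex whose view is in the local code has at least `δ |B|` wrong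
neighbours. -/
theorem dg_err {e : B → V ≃ V} {z m : V → B → A} {C : Set (B → A)} {δ : ℝ} (hC : Dist C δ)
    {w : Bool × V} (hw : w ∈ err e z m) (h1 : bv e z w ∈ C) (h2 : bv e m w ∈ C) :
    δ * Fintype.card B ≤ dg (bnb e) (err e z m) w := by
  classical
  refine (hC _ h1 _ h2 (mem_err.1 hw)).trans ?_
  have : hd (bv e z w) (bv e m w) ≤ dg (bnb e) (err e z m) w := by
    unfold hd
    refine le_dg fun b hb => ?_
    rw [mem_filter] at hb
    refine mem_err.2 fun h3 => hb.2 ?_
    rw [← bv_bnb e z, ← bv_bnb e m, h3]
  exact_mod_cast this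

section spec

variable [Nonempty B] [Nonempty V] {e : B → V ≃ V} {lam δ : ℝ}

theorem cardV_pos : (0 : ℝ) < Fintype.card V := by
  exact_mod_cast Fintype.card_pos

variable {CL CR : V → Set (B → A)}

/-- The number of wrong right vertices with a good check is small. -/
theorem card_errR_le (hlam : 0 ≤ lam) (hs : SpecGap e lam) (hδ : 0 < δ)
    {z m : V → B → A} {S : Finset V}
    (hS : ∀ v ∈ S, δ * Fintype.card B ≤ hd (rv e z v) (rv e m v))
    (hnear : ((errL z m).card : ℝ) ≤ δ / 2 * Fintype.card V) :
    (S.card : ℝ) ≤ (2 * lam / δ) ^ 2 * (errL z m).card := by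
  classical
  refine (hs.symm.mix hlam).core cardV_pos hδ (fun v hv => (hS v hv).trans ?_) hnear
  have : hd (rv e z v) (rv e m v) ≤ dg (fun b v => (e b).symm v) (errL z m) v := by
    unfold hd
    refine le_dg fun b hb => ?_
    rw [mem_filter] at hb
    refine mem_errL.2 fun h3 => hb.2 ?_
    unfold rv
    rw [h3]
  exact_mod_cast this

open Classical in
/-- **Link**: `z` is near the code word `m` and its checks fail at few sites. -/
theorem link (hlam : 0 ≤ lam) (hs : SpecGap e lam) (hδ : 0 < δ) (hκ : 2 * lam ≤ δ)
    (hL : ∀ v, Dist (CL v) δ) (hR : ∀ v, Dist (CR v) δ) {m : V → B → A} (hm : IsWord e CL CR m)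
    {z : V → B → A} {bad : Finset V} (hb : ∀ v, v ∉ bad → z v ∈ CL v ∧ rv e z v ∈ CR v)
    (hnear : ((errL z m).card : ℝ) + bad.card ≤ δ / 2 * Fintype.card V) :
    (1 - (2 * lam / δ) ^ 4) * ((errL z m).card : ℝ) ≤ (1 + (2 * lam / δ) ^ 2) * bad.card := by
  set κ : ℝ := (2 * lam / δ) ^ 2 with hκ'
  have hκ0 : 0 ≤ κ := by positivity
  have hκ1 : κ ≤ 1 := by
    rw [hκ']
    have : 2 * lam / δ ≤ 1 := by rw [div_le_one hδ]; exact hκ
    have h0 : 0 ≤ 2 * lam / δ := by positivity
    nlinarith
  have hbad : (0 : ℝ) ≤ bad.card := by positivity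
  have herr : (0 : ℝ) ≤ (errL z m).card := by positivity
  -- wrong right vertices
  set R : Finset V := univ.filter fun v => rv e z v ≠ rv e m v with hRdef
  have h1 : ((R \ bad).card : ℝ) ≤ κ * (errL z m).card := by
    refine card_errR_le hlam hs hδ (fun v hv => ?_) (by linarith)
    obtain ⟨h2, h3⟩ := mem_sdiff.1 hv
    rw [hRdef, mem_filter] at h2
    exact hR v _ (hb v h3).2 _ (hm v).2 h2.2
  have h2 : (R.card : ℝ) ≤ κ * (errL z m).card + bad.card := by
    have : R.card ≤ (R \ bad).card + bad.card := by
      refine le_trans (card_le_card fun v hv => ?_) (card_union_le _ _)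
      by_cases hb : v ∈ bad
      · exact mem_union_right _ hb
      · exact mem_union_left _ (mem_sdiff.2 ⟨hv, hb⟩)
    have : (R.card : ℝ) ≤ (R \ bad).card + bad.card := by exact_mod_cast this
    linarith
  -- wrong left vertices
  have h3 : ((errL z m \ bad).card : ℝ) ≤ κ * R.card := by
    refine (hs.mix hlam).core cardV_pos hδ (fun v hv => ?_) ?_
    · obtain ⟨h4, h5⟩ := mem_sdiff.1 hv
      refine (hL v _ (hb v h5).1 _ (hm v).1 (mem_errL.1 h4)).trans ?_
      have : hd (z v) (m v) ≤ dg (fun b v => e b v) R v := by
        unfold hd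
        refine le_dg fun b hb => ?_
        rw [mem_filter] at hb
        rw [hRdef, mem_filter]
        refine ⟨mem_univ _, fun h6 => hb.2 ?_⟩
        have := congrFun h6 b
        simpa [rv] using this
      exact_mod_cast this
    · nlinarith
  have h4 : ((errL z m).card : ℝ) ≤ (errL z m \ bad).card + bad.card := by
    have : (errL z m).card ≤ (errL z m \ bad).card + bad.card := by
      refine le_trans (card_le_card fun v hv => ?_) (card_union_le _ _)
      by_cases hb : v ∈ bad
      · exact mem_union_right _ hb
      · exact mem_union_left _ (mem_sdiff.2 ⟨hv, hb⟩)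
    exact_mod_cast this
  have h5 : (2 * lam / δ) ^ 4 = κ ^ 2 := by rw [hκ']; ring
  rw [h5]
  nlinarith

/-- **Distance**: two code words which agree at more than `1 - δ / 2` of the sites are equal. -/
theorem word_eq (hlam : 0 ≤ lam) (hs : SpecGap e lam) (hδ : 0 < δ) (hκ : 2 * lam < δ)
    (hL : ∀ v, Dist (CL v) δ) (hR : ∀ v, Dist (CR v) δ) {z m : V → B → A}
    (hz : IsWord e CL CR z) (hm : IsWord e CL CR m)
    (hnear : ((errL z m).card : ℝ) ≤ δ / 2 * Fintype.card V) : z = m := by
  have h := link hlam hs hδ hκ.le hL hR hm (z := z) (bad := ∅) (fun v _ => hz v)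
    (by simpa using hnear)
  have h1 : (2 * lam / δ) ^ 4 < 1 := by
    have h2 : 2 * lam / δ < 1 := by rw [div_lt_one hδ]; exact hκ
    exact pow_lt_one₀ (by positivity) h2 (by norm_num)
  have h3 : (errL z m).card = 0 := by
    simp only [card_empty, CharP.cast_eq_zero, mul_zero] at h
    by_contra h0
    have h4 : (0 : ℝ) < (errL z m).card := by
      exact_mod_cast Nat.pos_of_ne_zero h0
    nlinarith [mul_pos (sub_pos.2 h1) h4]
  funext v
  by_contra hv
  have : v ∈ errL z m := mem_errL.2 hv
  rw [card_eq_zero.1 h3] at this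
  simp at this

/-- The bad set in the bipartite graph. -/
def dbl (bad : Finset V) : Finset (Bool × V) := univ ×ˢ bad

omit [Fintype V] [Nonempty V] in
theorem mem_dbl {bad : Finset V} {w : Bool × V} : w ∈ dbl bad ↔ w.2 ∈ bad := by
  simp [dbl]

omit [Fintype V] [Nonempty V] in
theorem card_dbl (bad : Finset V) : (dbl bad).card = 2 * bad.card := by
  simp [dbl]

/-- **The closure set**: for a small set of bad sites there is a slightly larger set of vertices
of the bipartite graph, closed for the threshold `θ`. -/
theorem exists_cl (hlam : 0 ≤ lam) (hs : SpecGap e lam) {θ : ℝ} (hθ : 0 < θ) (hθ2 : 4 * lam ≤ θ)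
    (bad : Finset V) (hc : 24 * (bad.card : ℝ) < θ * Fintype.card V) :
    ∃ cl : Finset (Bool × V), (∀ v ∈ bad, ∀ i, (i, v) ∈ cl) ∧ (cl.card : ℝ) ≤ 4 * bad.card ∧
      Closed (bnb e) θ cl := by
  have hn : (0 : ℝ) < Fintype.card V := cardV_pos
  obtain ⟨S, h1, h2, h3⟩ := (hs.mix_bnb hlam).exists_closed hn (θ := θ) (C := 2) hθ
    (by norm_num) (dbl bad) (by
      rw [card_dbl]
      push_cast
      have h4 : (2 + 1) * (2 * (bad.card : ℝ)) / Fintype.card V < θ / 4 := by
        rw [div_lt_iff₀ hn]
        linarith
      norm_num at h4 ⊢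
      linarith)
  refine ⟨S, fun v hv i => h1 (mem_dbl.2 hv), ?_, h3⟩
  rw [card_dbl] at h2
  push_cast at h2
  linarith

/-- **One closure set for all registers**: if the checks of `z` hold outside `cl`, and `z` is near
the code word `m`, then `z` and `m` agree outside `cl`. -/
theorem subset_cl (hlam : 0 ≤ lam) (hs : SpecGap e lam) (hδ : 0 < δ) {θ : ℝ}
    (hθ : θ + lam < δ / 2)
    (hL : ∀ v, Dist (CL v) δ) (hR : ∀ v, Dist (CR v) δ) {m : V → B → A} (hm : IsWord e CL CR m)
    {z : V → B → A} {cl : Finset (Bool × V)} (hcl : Closed (bnb e) θ cl)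
    (hzL : ∀ v, (false, v) ∉ cl → z v ∈ CL v) (hzR : ∀ v, (true, v) ∉ cl → rv e z v ∈ CR v)
    (hκ : 4 * lam ≤ δ)
    (hnear : 2 * ((errL z m).card : ℝ) + cl.card ≤ δ / 2 * Fintype.card V) :
    err e z m ⊆ cl := by
  classical
  have hn : (0 : ℝ) < Fintype.card V := cardV_pos
  refine (hs.mix_bnb hlam).err_subset hn (δ := δ) (θ := θ) hcl ?_ ?_
  · rintro ⟨_ | _, v⟩ hw hcl'
    · exact dg_err (hL v) hw (by simpa [bv] using hzL v hcl') (by simpa [bv] using (hm v).1)
    · exact dg_err (hR v) hw (by simpa [bv] using hzR v hcl') (by simpa [bv] using (hm v).2)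
  · -- the number of wrong vertices
    set R : Finset V := univ.filter fun v => (true, v) ∈ err e z m ∧ (true, v) ∉ cl with hRd
    have h1 : (R.card : ℝ) ≤ (2 * lam / δ) ^ 2 * (errL z m).card := by
      refine card_errR_le hlam hs hδ (fun v hv => ?_) ?_
      · rw [hRd, mem_filter] at hv
        refine hR v _ (hzR v hv.2.2) _ (hm v).2 ?_
        have := mem_err.1 hv.2.1
        simpa [bv] using this
      · have : (0 : ℝ) ≤ (errL z m).card := by positivity
        have : (0 : ℝ) ≤ cl.card := by positivity
        linarith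
    have h2 : (err e z m).card ≤ (errL z m).card + R.card + cl.card := by
      have h3 : err e z m ⊆ ((errL z m).image fun v => (false, v)) ∪
          (R.image fun v => (true, v)) ∪ cl := by
        rintro ⟨_ | _, v⟩ hw
        · exact mem_union_left _ (mem_union_left _ (mem_image_of_mem _ (mem_err_false.1 hw)))
        · by_cases hc : (true, v) ∈ cl
          · exact mem_union_right _ hc
          · refine mem_union_left _ (mem_union_right _ (mem_image_of_mem _ ?_))
            rw [hRd, mem_filter]
            exact ⟨mem_univ _, hw, hc⟩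
      calc (err e z m).card ≤ _ := card_le_card h3
        _ ≤ _ := (card_union_le _ _)
        _ ≤ _ := by
          gcongr
          refine (card_union_le _ _).trans ?_
          gcongr <;> exact card_image_le
    have h3 : ((err e z m).card : ℝ) ≤ (errL z m).card + R.card + cl.card := by
      exact_mod_cast h2
    have h4 : (2 * lam / δ) ^ 2 ≤ 1 := by
      have : 2 * lam / δ ≤ 1 := by rw [div_le_one hδ]; linarith
      have h0 : 0 ≤ 2 * lam / δ := by positivity
      nlinarith
    have h5 : (0 : ℝ) ≤ (errL z m).card := by positivity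
    have h6 : ((err e z m).card : ℝ) / Fintype.card V ≤ δ / 2 := by
      rw [div_le_iff₀ hn]
      nlinarith
    linarith

/-- **All registers are exact.** Registers `z k` with the intended code words `m k`, the checks of
all registers hold outside `cl`; if all earlier registers are exact outside `cl`, then the
register `z k` is near `m k` (this follows from the links). Then all registers are exact outside
`cl`. -/
theorem reg_exact (hlam : 0 ≤ lam) (hs : SpecGap e lam) (hδ : 0 < δ) {θ : ℝ}
    (hθ : θ + lam < δ / 2) (hκ : 4 * lam ≤ δ)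
    {K : ℕ} {m z : ℕ → V → B → A} {CL CR : ℕ → V → Set (B → A)}
    (hL : ∀ k < K, ∀ v, Dist (CL k v) δ) (hR : ∀ k < K, ∀ v, Dist (CR k v) δ)
    (hm : ∀ k < K, IsWord e (CL k) (CR k) (m k))
    {cl : Finset (Bool × V)} (hcl : Closed (bnb e) θ cl)
    (hzL : ∀ k < K, ∀ v, (false, v) ∉ cl → z k v ∈ CL k v)
    (hzR : ∀ k < K, ∀ v, (true, v) ∉ cl → rv e (z k) v ∈ CR k v)
    (hnear : ∀ k < K, (∀ j < k, ∀ v, (false, v) ∉ cl → z j v = m j v) →
      2 * ((errL (z k) (m k)).card : ℝ) + cl.card ≤ δ / 2 * Fintype.card V) :
    ∀ k < K, ∀ v, (false, v) ∉ cl → z k v = m k v := by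
  intro k
  induction k using Nat.strong_induction_on with
  | _ k ih =>
    intro hk v hv
    by_contra hne
    have h1 := subset_cl hlam hs hδ hθ (hL k hk) (hR k hk) (hm k hk) hcl (hzL k hk) (hzR k hk) hκ
      (hnear k hk fun j hj => ih j hj (hj.trans hk))
    exact hv (h1 (mem_err_false.2 (mem_errL.2 hne)))

end spec

/-! ### Contraction -/

section hold

open Classical in
/-- `D` decodes the code `C` from less than `δ |B|` errors and erasures. -/
def Decodes (D : (B → Option A) → (B → A)) (C : Set (B → A)) (δ : ℝ) : Prop :=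
  ∀ c ∈ C, ∀ y : B → Option A,
    ((univ.filter fun b => y b ≠ some (c b)).card : ℝ) < δ * Fintype.card B → D y = c

/-- One round of decoding: the right vertices decode, then the left vertex. -/
def hold (e : B → V ≃ V) (DL DR : V → (B → Option A) → (B → A)) (X : V → Option (B → A))
    (v : V) : B → A :=
  DL v fun b => some (DR (e b v) (fun b' => (X ((e b').symm (e b v))).map fun x => x b') b)

variable [Nonempty B] [Nonempty V] {e : B → V ≃ V} {lam δ : ℝ} {CL CR : V → Set (B → A)}

omit [Nonempty B] [Nonempty V] [Fintype V] in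
/-- Outside the right vertices in `R` at most a small number of neighbours are bad, and `v` has few
neighbours in `R`: then one round of decoding gives the right view at `v`. -/
theorem hold_eq_of {bad R : Finset V}
    {DL DR : V → (B → Option A) → (B → A)} (hDL : ∀ v, Decodes (DL v) (CL v) δ)
    (hDR : ∀ v, Decodes (DR v) (CR v) δ)
    (hR : ∀ u, u ∉ R → (dg (fun b v => (e b).symm v) bad u : ℝ) < δ * Fintype.card B)
    {m : V → B → A} (hm : IsWord e CL CR m) {X : V → Option (B → A)}
    (hX : ∀ v, v ∉ bad → X v = some (m v)) {v : V}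
    (hv : (dg (fun b v => e b v) R v : ℝ) < δ * Fintype.card B) :
    hold e DL DR X v = m v := by
  classical
  have hRok : ∀ u, u ∉ R →
      DR u (fun b' => (X ((e b').symm u)).map fun x => x b') = rv e m u := by
    intro u hu
    refine hDR u _ (hm u).2 _ ?_
    refine lt_of_le_of_lt ?_ (hR u hu)
    have : (univ.filter fun b' => (X ((e b').symm u)).map (fun x => x b') ≠
        some (rv e m u b')).card ≤ dg (fun b v => (e b).symm v) bad u := by
      refine le_dg fun b hb => ?_
      rw [mem_filter] at hb
      by_contra h6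
      exact hb.2 (by rw [hX _ h6]; rfl)
    exact_mod_cast this
  unfold hold
  refine hDL v _ (hm v).1 _ ?_
  refine lt_of_le_of_lt ?_ hv
  have : (univ.filter fun b => (some (DR (e b v)
      (fun b' => (X ((e b').symm (e b v))).map fun x => x b') b) : Option A) ≠
        some (m v b)).card ≤ dg (fun b v => e b v) R v := by
    refine le_dg fun b hb => ?_
    rw [mem_filter] at hb
    by_contra h6
    refine hb.2 ?_
    rw [hRok _ h6]
    simp [rv]
  exact_mod_cast this

end hold

end Vale.Agent.P330.TAN
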