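import Vale.Agent.P330.W.H624.Tanner

/-!
# Package: distance, closure, contraction with numbers

For `16 lam ≤ δ ≤ 1`.
-/

namespace Vale.Agent.P330.TAN

open Finset

variable {V B : Type*} [Fintype V] [Fintype B] [Nonempty V] [Nonempty B] {e : B → V ≃ V}
  {lam δ : ℝ}

/-- **Closure**, in the form used by the registers: one set `cl` of sites, which depends on `bad`
only, contains the errors of every word which is near a code word and whose checks hold outside
`bad`. -/
theorem closure (hlam : 0 ≤ lam) (hs : SpecGap e lam) (hδ : 0 < δ) (hδl : 16 * lam ≤ δ)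
    (bad : Finset V) (hbad : 100 * (bad.card : ℝ) ≤ δ * Fintype.card V) :
    ∃ cl : Finset V, bad ⊆ cl ∧ (cl.card : ℝ) ≤ 4 * bad.card ∧
      ∀ (A : Type) (CL CR : V → Set (B → A)), (∀ v, Dist (CL v) δ) → (∀ v, Dist (CR v) δ) →
        ∀ z m : V → B → A, IsWord e CL CR m →
          (∀ v, v ∉ bad → z v ∈ CL v ∧ rv e z v ∈ CR v) →
          8 * ((errL z m).card : ℝ) ≤ δ * Fintype.card V → errL z m ⊆ cl := by
  classical
  have hn : (0 : ℝ) < Fintype.card V := cardV_pos
  obtain ⟨S, h1, h2, h3⟩ := exists_cl hlam hs (θ := δ / 4) (by positivity) (by linarith) bad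
    (by nlinarith [mul_pos hδ hn])
  refine ⟨univ.filter fun v => (false, v) ∈ S, ?_, ?_, ?_⟩
  · intro v hv
    simpa using h1 v hv false
  · have h4 : (univ.filter fun v => (false, v) ∈ S).card ≤ S.card := by
      rw [card_bool_split S]
      exact Nat.le_add_right _ _
    have h5 : ((univ.filter fun v => (false, v) ∈ S).card : ℝ) ≤ S.card := by exact_mod_cast h4
    linarith
  · intro A CL CR hL hR z m hm hz hnear
    have h6 := subset_cl hlam hs hδ (θ := δ / 4) (by linarith) hL hR hm h3
      (fun v hv => (hz v fun hb => hv (h1 v hb false)).1)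
      (fun v hv => (hz v fun hb => hv (h1 v hb true)).2) (by linarith)
      (by nlinarith [mul_pos hδ hn])
    intro v hv
    simpa using h6 (mem_err_false.2 hv)

/-- Constant views. -/
def constC (B A : Type*) : Set (B → A) := {x | ∃ a, x = fun _ => a}

omit [Nonempty B] in
theorem dist_constC (A : Type*) (h : δ ≤ 1) : Dist (constC B A) δ := by
  classical
  rintro x ⟨a, rfl⟩ y ⟨b, rfl⟩ hxy
  have hab : a ≠ b := fun h => hxy (by rw [h])
  have : (hd (fun _ : B => a) fun _ => b) = Fintype.card B := by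
    unfold hd
    simp [hab]
  rw [this]
  have : (0 : ℝ) ≤ Fintype.card B := by positivity
  nlinarith

omit [Fintype V] [Fintype B] [Nonempty V] [Nonempty B] in
/-- Every constant function is a word of the repetition code. -/
theorem isWord_const {A : Type*} (a : A) :
    IsWord e (fun _ => constC B A) (fun _ => constC B A) fun _ _ => a :=
  fun _ => ⟨⟨a, rfl⟩, ⟨a, rfl⟩⟩

omit [Nonempty V] in
/-- **Closure for constants**: `x : V → A` is near the constant `a` and outside `bad` it has the
same value as at all neighbours `(e b).symm v`. -/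
theorem closure_const {cl bad : Finset V} (hδ1 : δ ≤ 1)
    (h : ∀ (A : Type) (CL CR : V → Set (B → A)), (∀ v, Dist (CL v) δ) → (∀ v, Dist (CR v) δ) →
        ∀ z m : V → B → A, IsWord e CL CR m →
          (∀ v, v ∉ bad → z v ∈ CL v ∧ rv e z v ∈ CR v) →
          8 * ((errL z m).card : ℝ) ≤ δ * Fintype.card V → errL z m ⊆ cl)
    {A : Type} (x : V → A) (a : A) (hx : ∀ v, v ∉ bad → ∀ b b', x ((e b).symm v) =
      x ((e b').symm v))
    (hnear : ∀ s : Finset V, (∀ v ∈ s, x v ≠ a) → 8 * (s.card : ℝ) ≤ δ * Fintype.card V) :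
    ∀ v, v ∉ cl → x v = a := by
  classical
  intro v hv
  by_contra hne
  have hmem : ∀ v, v ∈ errL (fun v (_ : B) => x v) (fun _ _ => a) → x v ≠ a := by
    intro v hv h1
    exact (mem_errL.1 hv) (by funext b; exact h1)
  have h2 := h A (fun _ => constC B A) (fun _ => constC B A) (fun _ => dist_constC A hδ1)
    (fun _ => dist_constC A hδ1) (fun v _ => x v) (fun _ _ => a) (isWord_const a)
    (fun v hv => ⟨⟨x v, rfl⟩, ⟨x ((e (Classical.arbitrary B)).symm v),
      funext fun b => hx v hv b _⟩⟩) (hnear _ hmem)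
  refine hv (h2 (mem_errL.2 fun h3 => hne ?_))
  exact congrFun h3 (Classical.arbitrary B)

/-- **Contraction** with one set for all words, all alphabets and all pairs of decoders. -/
theorem contraction (hlam : 0 ≤ lam) (hs : SpecGap e lam) (hδ : 0 < δ) (hδl : 2 * lam ≤ δ)
    (bad : Finset V) (hbad : 2 * (bad.card : ℝ) ≤ δ * Fintype.card V) :
    ∃ T : Finset V, (T.card : ℝ) ≤ (2 * lam / δ) ^ 4 * bad.card ∧
      ∀ (A : Type) (CL CR : V → Set (B → A)) (DL DR : V → (B → Option A) → (B → A)),
        (∀ v, Decodes (DL v) (CL v) δ) → (∀ v, Decodes (DR v) (CR v) δ) →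
        ∀ m : V → B → A, IsWord e CL CR m → ∀ X : V → Option (B → A),
        (∀ v, v ∉ bad → X v = some (m v)) → ∀ v, v ∉ T → hold e DL DR X v = m v := by
  classical
  have hn : (0 : ℝ) < Fintype.card V := cardV_pos
  set R : Finset V := univ.filter fun v =>
    δ * Fintype.card B ≤ dg (fun b v => (e b).symm v) bad v with hR
  set T : Finset V := univ.filter fun v =>
    δ * Fintype.card B ≤ dg (fun b v => e b v) R v with hT
  have hb0 : (0 : ℝ) ≤ bad.card := by positivity
  have h1 : (R.card : ℝ) ≤ (2 * lam / δ) ^ 2 * bad.card :=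
    (hs.symm.mix hlam).core hn hδ (fun v hv => (mem_filter.1 hv).2) (by linarith)
  have h4 : (2 * lam / δ) ^ 2 ≤ 1 := by
    have : 2 * lam / δ ≤ 1 := by rw [div_le_one hδ]; linarith
    have h0 : 0 ≤ 2 * lam / δ := by positivity
    nlinarith
  have h2 : (T.card : ℝ) ≤ (2 * lam / δ) ^ 2 * R.card :=
    (hs.mix hlam).core hn hδ (fun v hv => (mem_filter.1 hv).2) (by nlinarith)
  refine ⟨T, ?_, ?_⟩
  · calc (T.card : ℝ) ≤ (2 * lam / δ) ^ 2 * R.card := h2
      _ ≤ (2 * lam / δ) ^ 2 * ((2 * lam / δ) ^ 2 * bad.card) := by gcongr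
      _ = _ := by ring
  · intro A CL CR DL DR hDL hDR m hm X hX v hv
    exact hold_eq_of (R := R) hDL hDR (fun u hu => by
      rw [hR, mem_filter] at hu
      push Not at hu
      exact hu (mem_univ _)) hm hX (by
      rw [hT, mem_filter] at hv
      push Not at hv
      exact hv (mem_univ _))

end Vale.Agent.P330.TAN
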