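import Vale.Agent.P330.H155.Alg
import Vale.Agent.P330.W.H170.Code
import Vale.Agent.P330.W.H972.Info

/-!
# The algebraic hypothesis `Cd.Good` for the concrete code

Left local code: the words over `F` satisfying the checks in `P0` (a code over `ZMod 2`). Right
local code: the words which satisfy the checks in `P1` after multiplication by `eps` at the labels
in `B1`.  Here `B1`, `B2` are disjoint information sets of `P0`, `P1`, and `eps` is not a root of a
nonzero polynomial over `ZMod 2` of degree at most `|Γ| |B|`.  Then for every content there is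
exactly one word (`good`).
-/

namespace Vale.Agent.P330.W.H624

open Finset Polynomial Vale.Agent.P330.H155 Vale.Agent.P330.W.H972

/-! ### Dual checks of an information set -/

section dual

variable {B K : Type*} [Fintype B] [DecidableEq B] [Field K]

/-- For every label in the information set there is a check which is `1` at this label and `0` at
the other labels of the information set. -/
theorem exists_dual {P : Submodule K (B → K)} {B1 : Finset B} (hi : IsInfo P B1)
    (hc : B1.card = Module.finrank K P) (b : B) :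
    ∃ p ∈ P, ∀ j ∈ B1, p j = if j = b then 1 else 0 := by
  let g : P →ₗ[K] (B1 → K) := LinearMap.pi fun j => (LinearMap.proj j.1).comp P.subtype
  have hg : Function.Injective g := by
    rw [← LinearMap.ker_eq_bot, LinearMap.ker_eq_bot']
    intro y hy
    refine Subtype.ext (hi y y.2 fun j hj => ?_)
    have := congrFun hy ⟨j, hj⟩
    simpa [g] using this
  have hs : Function.Surjective g := by
    refine (LinearMap.injective_iff_surjective_of_finrank_eq_finrank ?_).1 hg
    rw [Module.finrank_fintype_fun_eq_card, Fintype.card_coe, hc]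
  obtain ⟨p, hp⟩ := hs fun j => if j.1 = b then 1 else 0
  refine ⟨p, p.2, fun j hj => ?_⟩
  have := congrFun hp ⟨j, hj⟩
  simpa [g] using this

open Classical in
/-- The dual checks (`0` outside the information set). -/
noncomputable def dualCk (P : Submodule K (B → K)) (B1 : Finset B) (b : B) : B → K :=
  if h : b ∈ B1 ∧ ∃ p ∈ P, ∀ j ∈ B1, p j = if j = b then 1 else 0 then h.2.choose else 0

omit [Fintype B] in
theorem dualCk_mem {P : Submodule K (B → K)} {B1 : Finset B} (b : B) : dualCk P B1 b ∈ P := by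
  unfold dualCk
  split_ifs with h
  · exact h.2.choose_spec.1
  · exact P.zero_mem

theorem dualCk_apply {P : Submodule K (B → K)} {B1 : Finset B} (hi : IsInfo P B1)
    (hc : B1.card = Module.finrank K P) {b j : B} (hb : b ∈ B1) (hj : j ∈ B1) :
    dualCk P B1 b j = if j = b then 1 else 0 := by
  classical
  have h : b ∈ B1 ∧ ∃ p ∈ P, ∀ j ∈ B1, p j = if j = b then 1 else 0 :=
    ⟨hb, exists_dual hi hc b⟩
  unfold dualCk
  rw [dif_pos h]
  have := h.2.choose_spec.2 j hj
  convert this

/-- The dual checks span the check space. -/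
theorem eq_sum_dualCk {P : Submodule K (B → K)} {B1 : Finset B} (hi : IsInfo P B1)
    (hc : B1.card = Module.finrank K P) {p : B → K} (hp : p ∈ P) :
    p = ∑ b ∈ B1, p b • dualCk P B1 b := by
  have h1 : p - ∑ b ∈ B1, p b • dualCk P B1 b ∈ P :=
    P.sub_mem hp (P.sum_mem fun b _ => P.smul_mem _ (dualCk_mem b))
  have h2 := hi _ h1 fun j hj => by
    rw [Pi.sub_apply, Finset.sum_apply, sum_eq_single j]
    · rw [Pi.smul_apply, dualCk_apply hi hc hj hj, if_pos rfl, smul_eq_mul, mul_one, sub_self]
    · intro b hb hbj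
      rw [Pi.smul_apply, dualCk_apply hi hc hb hj, if_neg (Ne.symm hbj), smul_zero]
    · intro h
      exact absurd hj h
  exact sub_eq_zero.1 h2

theorem mem_Wd_iff_dual {P : Submodule K (B → K)} {B1 : Finset B} (hi : IsInfo P B1)
    (hc : B1.card = Module.finrank K P) {E : Type*} [AddCommGroup E] [Module K E] {x : B → E} :
    x ∈ Wd P E ↔ ∀ b ∈ B1, ∑ j, dualCk P B1 b j • x j = 0 := by
  constructor
  · intro h b _
    exact h _ (dualCk_mem b)
  · intro h p hp
    rw [eq_sum_dualCk hi hc hp]
    simp only [Finset.sum_apply, Pi.smul_apply, smul_eq_mul, sum_smul, mul_smul]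
    rw [sum_comm]
    refine sum_eq_zero fun b hb => ?_
    rw [← smul_sum, h b hb, smul_zero]

end dual

/-! ### The reduced system -/

section reduced

variable {Γ B F : Type*} [Group Γ] [Fintype Γ] [DecidableEq Γ] [Fintype B] [DecidableEq B]
  [Field F] [Algebra (ZMod 2) F]

/-- The matrix of the reduced system. -/
noncomputable def redM (η : B → Γ) (P0 P1 : Submodule (ZMod 2) (B → ZMod 2)) (B1 B2 : Finset B) :
    Matrix (Γ × B) (Γ × B) (ZMod 2) := fun p p' =>
  if p.2 ∈ B2 ∧ p'.2 ∈ B2 then
    ∑ b1 ∈ B1, if p'.1 = p.1 * η p.2 * (η b1)⁻¹ then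
      dualCk P1 B2 p.2 b1 * dualCk P0 B1 b1 p'.2 else 0
  else 0

theorem zmod_neg (F : Type*) [Field F] [Algebra (ZMod 2) F] (x : F) : -x = x := by
  have h : CharP F 2 := charP_of_injective_algebraMap (algebraMap (ZMod 2) F).injective 2
  exact CharTwo.neg_eq x

theorem red_trivial {η : B → Γ} {P0 P1 : Submodule (ZMod 2) (B → ZMod 2)} {B1 B2 : Finset B}
    (hi1 : IsInfo P0 B1) (hc1 : B1.card = Module.finrank (ZMod 2) P0)
    (hi2 : IsInfo P1 B2) (hc2 : B2.card = Module.finrank (ZMod 2) P1) (hd : Disjoint B1 B2)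
    {eps : F} (hgen : ∀ f : (ZMod 2)[X], f ≠ 0 →
      f.natDegree ≤ Fintype.card Γ * Fintype.card B → aeval eps f ≠ 0)
    {X : Γ → B → F} (h0 : ∀ v, X v ∈ Wd P0 F)
    (h1 : ∀ v, (fun b => (if b ∈ B1 then eps else 1) * X (v * (η b)⁻¹) b) ∈ Wd P1 F)
    (h2 : ∀ v b, b ∉ B1 → b ∉ B2 → X v b = 0) : X = 0 := by
  -- the solved left checks
  have hL : ∀ v, ∀ b ∈ B1, X v b = ∑ j ∈ B2, dualCk P0 B1 b j • X v j := by
    intro v b hb
    have h3 := (mem_Wd_iff_dual hi1 hc1).1 (h0 v) b hb
    rw [← sum_subset (s₁ := B1 ∪ B2) (subset_univ _), sum_union hd] at h3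
    · rw [sum_eq_single b] at h3
      · rw [dualCk_apply hi1 hc1 hb hb, if_pos rfl, one_smul] at h3
        rw [eq_neg_of_add_eq_zero_left h3, zmod_neg]
      · intro j hj hjb
        rw [dualCk_apply hi1 hc1 hb hj, if_neg hjb, zero_smul]
      · intro h; exact absurd hb h
    · intro j _ hj
      rw [mem_union, not_or] at hj
      rw [h2 v j hj.1 hj.2, smul_zero]
  -- the solved right checks
  have hR : ∀ w, ∀ b ∈ B2, X w b =
      eps * ∑ b1 ∈ B1, dualCk P1 B2 b b1 • X (w * η b * (η b1)⁻¹) b1 := by
    intro w b hb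
    have h3 := (mem_Wd_iff_dual hi2 hc2).1 (h1 (w * η b)) b hb
    rw [← sum_subset (s₁ := B1 ∪ B2) (subset_univ _), sum_union hd, add_comm] at h3
    · rw [sum_eq_single b] at h3
      · rw [dualCk_apply hi2 hc2 hb hb, if_pos rfl, one_smul,
          if_neg (Finset.disjoint_right.1 hd hb), one_mul, mul_inv_cancel_right] at h3
        rw [eq_neg_of_add_eq_zero_left h3, zmod_neg, mul_sum]
        refine sum_congr rfl fun b1 hb1 => ?_
        rw [if_pos hb1, mul_smul_comm]
      · intro j hj hjb
        rw [dualCk_apply hi2 hc2 hb hj, if_neg hjb, zero_smul]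
      · intro h; exact absurd hb h
    · intro j _ hj
      rw [mem_union, not_or] at hj
      rw [h2 _ j hj.1 hj.2, mul_zero, smul_zero]
  -- the eigenvector
  set y : Γ × B → F := fun p => if p.2 ∈ B2 then X p.1 p.2 else 0 with hy
  set M : Matrix (Γ × B) (Γ × B) F :=
    (redM η P0 P1 B1 B2).map (algebraMap (ZMod 2) F) with hM
  have hMy : ∀ p, y p = eps * M.mulVec y p := by
    rintro ⟨w, b⟩
    by_cases hb : b ∈ B2
    · have e1 : y (w, b) = X w b := by simp only [hy]; rw [if_pos hb]
      rw [e1, hR w b hb]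
      congr 1
      unfold Matrix.mulVec dotProduct
      have e2 : ∀ p' : Γ × B, M (w, b) p' * y p' = ∑ b1 ∈ B1,
          if p'.1 = w * η b * (η b1)⁻¹ then
            (if p'.2 ∈ B2 then (dualCk P1 B2 b b1 * dualCk P0 B1 b1 p'.2) • X p'.1 p'.2 else 0)
          else 0 := by
        rintro ⟨w', b'⟩
        simp only [hM, hy, Matrix.map_apply, redM]
        by_cases hb' : b' ∈ B2
        · rw [if_pos ⟨hb, hb'⟩, if_pos hb', map_sum, sum_mul]
          refine sum_congr rfl fun b1 _ => ?_
          split_ifs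
          · rw [Algebra.smul_def]
          · rw [map_zero, zero_mul]
        · rw [if_neg hb', mul_zero]
          simp [hb']
      rw [sum_congr rfl fun p' _ => e2 p', sum_comm]
      refine sum_congr rfl fun b1 hb1 => ?_
      rw [Fintype.sum_prod_type, sum_eq_single (w * η b * (η b1)⁻¹)]
      · simp only [if_true]
        rw [hL _ b1 hb1, smul_sum, ← sum_filter, filter_mem_eq_inter, univ_inter]
        refine sum_congr rfl fun j _ => ?_
        rw [mul_smul]
      · intro w' _ hw'
        refine sum_eq_zero fun b' _ => ?_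
        rw [if_neg hw']
      · intro h; exact absurd (mem_univ _) h
    · have e1 : y (w, b) = 0 := by simp only [hy]; rw [if_neg hb]
      rw [e1]
      have e2 : M.mulVec y (w, b) = 0 := by
        unfold Matrix.mulVec dotProduct
        refine sum_eq_zero fun p' _ => ?_
        simp only [hM, Matrix.map_apply, redM]
        rw [if_neg (fun h => hb h.1), map_zero, zero_mul]
      rw [e2, mul_zero]
  -- it vanishes
  have hy0 : y = 0 := by
    by_contra hne
    have heps : eps ≠ 0 := by
      rintro rfl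
      exact hne (funext fun p => by rw [hMy p, zero_mul]; rfl)
    have h3 : ((Matrix.scalar (Γ × B) eps⁻¹) - M).det = 0 := by
      refine Matrix.exists_mulVec_eq_zero_iff.1 ⟨y, hne, ?_⟩
      funext p
      rw [Matrix.sub_mulVec, Pi.sub_apply, Matrix.scalar_apply, Matrix.mulVec_diagonal, hMy p,
        ← mul_assoc, inv_mul_cancel₀ heps, one_mul, sub_self]
      rfl
    rw [← Matrix.eval_charpoly, hM, Matrix.charpoly_map, eval_map] at h3
    set p := (redM η P0 P1 B1 B2).charpoly with hp
    have hmon : p.Monic := Matrix.charpoly_monic _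
    have hdeg : p.natDegree = Fintype.card Γ * Fintype.card B := by
      rw [hp, Matrix.charpoly_natDegree_eq_dim, Fintype.card_prod]
    have h5 : eval₂ (algebraMap (ZMod 2) F) eps p.reverse = 0 := by
      letI : Invertible eps⁻¹ := invertibleOfNonzero (inv_ne_zero heps)
      have h4 := eval₂_reverse_mul_pow (algebraMap (ZMod 2) F) eps⁻¹ p
      rw [h3, invOf_eq_inv, inv_inv] at h4
      exact (mul_eq_zero.1 h4).resolve_right (pow_ne_zero _ (inv_ne_zero heps))
    refine hgen p.reverse ?_ ?_ h5
    · rw [Ne, reverse_eq_zero]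
      exact hmon.ne_zero
    · exact (reverse_natDegree_le p).trans hdeg.le
  -- all values vanish
  have hX2 : ∀ v, ∀ b ∈ B2, X v b = 0 := by
    intro v b hb
    have := congrFun hy0 (v, b)
    simp only [hy, Pi.zero_apply] at this
    rwa [if_pos hb] at this
  funext v b
  by_cases hb1 : b ∈ B1
  · rw [hL v b hb1]
    refine sum_eq_zero fun j hj => ?_
    rw [hX2 v j hj, smul_zero]
  · by_cases hb2 : b ∈ B2
    · exact hX2 v b hb2
    · exact h2 v b hb1 hb2

end reduced

/-! ### The whole system -/

section whole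

variable {J Γ B F : Type*} [AddCommGroup J] [Fintype J] [Group Γ] [Fintype Γ] [DecidableEq Γ]
  [DistribMulAction Γ J] [Fintype B] [DecidableEq B] [Field F] [Algebra (ZMod 2) F]

/-- The right local code. -/
def rCode (P : Submodule (ZMod 2) (B → ZMod 2)) (B1 : Finset B) (eps : F) :
    Submodule F (B → F) where
  carrier := {x | (fun b => (if b ∈ B1 then eps else 1) * x b) ∈ Wd P F}
  add_mem' := by
    intro x y hx hy
    simp only [Set.mem_setOf_eq] at hx hy ⊢
    have : (fun b => (if b ∈ B1 then eps else 1) * (x + y) b) =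
        (fun b => (if b ∈ B1 then eps else 1) * x b) +
          fun b => (if b ∈ B1 then eps else 1) * y b := by
      funext b
      simp only [Pi.add_apply, mul_add]
    rw [this]
    exact (Wd P F).add_mem hx hy
  zero_mem' := by
    simp only [Set.mem_setOf_eq]
    have : (fun b => (if b ∈ B1 then eps else 1) * (0 : B → F) b) = 0 := by
      funext b
      simp
    rw [this]
    exact (Wd P F).zero_mem
  smul_mem' := by
    intro c x hx p hp
    have h := hx p hp
    have : ∀ b, p b • ((if b ∈ B1 then eps else 1) * (c • x) b) =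
        c * (p b • ((if b ∈ B1 then eps else 1) * x b)) := by
      intro b
      rw [Pi.smul_apply, smul_eq_mul, mul_smul_comm]
      congr 1
      ring
    simp only [this]
    rw [← mul_sum, h, mul_zero]

/-- The left local code. -/
def lCode (P : Submodule (ZMod 2) (B → ZMod 2)) : Submodule F (B → F) where
  carrier := {x | x ∈ Wd P F}
  add_mem' := (Wd P F).add_mem
  zero_mem' := (Wd P F).zero_mem
  smul_mem' := by
    intro c x hx p hp
    have h := hx p hp
    have : ∀ b, p b • (c • x) b = c * (p b • x b) := by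
      intro b
      rw [Pi.smul_apply, smul_eq_mul, mul_smul_comm]
    simp only [this]
    rw [← mul_sum, h, mul_zero]

/-- The data of the concrete code. -/
def cdOf (bet : B → J) (η : B → Γ) (P0 P1 : Submodule (ZMod 2) (B → ZMod 2)) (B1 B2 : Finset B)
    (eps : F) (b0 : B) : Cd J Γ B F where
  bet := bet
  eta := η
  C0 := lCode P0
  C1 := rCode P1 B1 eps
  info := {b | b ∉ B1 ∧ b ∉ B2}
  b0 := b0

variable {bet : B → J} {η : B → Γ} {P0 P1 : Submodule (ZMod 2) (B → ZMod 2)} {B1 B2 : Finset B}
  {eps : F} {b0 : B}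

/-- A nonzero word in a translation invariant family gives a nonzero invariant word. -/
theorem exists_invariant (two : ∀ x : J, x + x = 0) {N : Set (J × Γ → B → F)}
    (hadd : ∀ X ∈ N, ∀ Y ∈ N, X + Y ∈ N) (htr : ∀ X ∈ N, ∀ z : J, (fun h => X (lt z 1 h)) ∈ N)
    {X : J × Γ → B → F} (hX : X ∈ N) (h0 : X ≠ 0) :
    ∃ Y ∈ N, Y ≠ 0 ∧ ∀ z : J, (fun h => Y (lt z 1 h)) = Y := by
  classical
  have key : ∀ s : Finset J, ∃ Y ∈ N, Y ≠ 0 ∧ ∀ z ∈ s, (fun h => Y (lt z 1 h)) = Y := by
    intro s
    induction s using Finset.induction_on with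
    | empty => exact ⟨X, hX, h0, by simp⟩
    | insert z s _ ih =>
      obtain ⟨Y, hY, hY0, hinv⟩ := ih
      by_cases hz : (fun h => Y (lt z 1 h)) = Y
      · refine ⟨Y, hY, hY0, fun w hw => ?_⟩
        rcases mem_insert.1 hw with rfl | hw
        · exact hz
        · exact hinv w hw
      · refine ⟨Y + fun h => Y (lt z 1 h), hadd _ hY _ (htr _ hY z), ?_, ?_⟩
        · intro hc
          apply hz
          funext h b
          have h1 := congrFun (congrFun hc h) b
          simp only [Pi.add_apply, Pi.zero_apply] at h1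
          rw [eq_neg_of_add_eq_zero_right h1, zmod_neg]
        · intro w hw
          rcases mem_insert.1 hw with rfl | hw
          · funext h
            simp only [Pi.add_apply]
            have : lt w (1 : Γ) (lt w 1 h) = h := by
              unfold lt
              simp only [one_smul, one_mul]
              rw [← add_assoc, two, zero_add]
            rw [this, add_comm]
          · funext h
            simp only [Pi.add_apply]
            have h1 : lt z (1 : Γ) (lt w 1 h) = lt w 1 (lt z 1 h) := by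
              unfold lt
              simp only [one_smul, one_mul]
              rw [add_left_comm]
            rw [h1]
            have h2 : Y (lt w 1 h) = Y h := congrFun (hinv w hw) h
            have h3 : Y (lt w 1 (lt z 1 h)) = Y (lt z 1 h) := congrFun (hinv w hw) (lt z 1 h)
            rw [h2, h3]
  obtain ⟨Y, h1, h2, h3⟩ := key univ
  exact ⟨Y, h1, h2, fun z => h3 z (mem_univ z)⟩

theorem uniq_cdOf (two : ∀ x : J, x + x = 0)
    (hi1 : IsInfo P0 B1) (hc1 : B1.card = Module.finrank (ZMod 2) P0)
    (hi2 : IsInfo P1 B2) (hc2 : B2.card = Module.finrank (ZMod 2) P1) (hd : Disjoint B1 B2)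
    (hgen : ∀ f : (ZMod 2)[X], f ≠ 0 →
      f.natDegree ≤ Fintype.card Γ * Fintype.card B → aeval eps f ≠ 0)
    (X : J × Γ → B → F) (hX : (cdOf bet η P0 P1 B1 B2 eps b0).IsM X)
    (h2 : ∀ h, ∀ b, b ∉ B1 → b ∉ B2 → X h b = 0) : X = 0 := by
  by_contra h0
  set S := cdOf bet η P0 P1 B1 B2 eps b0 with hS
  obtain ⟨Y, ⟨hY, hY2⟩, hY0, hinv⟩ := exists_invariant two
    (N := {X | S.IsM X ∧ ∀ h, ∀ b, b ∉ B1 → b ∉ B2 → X h b = 0})
    (fun X hX Y hY => ⟨hX.1.add hY.1, fun h b hb1 hb2 => by
      rw [Pi.add_apply, Pi.add_apply, hX.2 h b hb1 hb2, hY.2 h b hb1 hb2, add_zero]⟩)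
    (fun X hX z => ⟨hX.1.lt z 1, fun h b hb1 hb2 => hX.2 _ b hb1 hb2⟩) ⟨hX, h2⟩ h0
  have hx : ∀ (x : J) (v : Γ), Y (x, v) = Y (0, v) := by
    intro x v
    have := congrFun (hinv x) (0, v)
    simp only [lt, smul_zero, add_zero, one_mul] at this
    exact this
  have h3 : (fun v => Y (0, v)) = 0 := by
    refine red_trivial (η := η) hi1 hc1 hi2 hc2 hd hgen (fun v => hY.1 (0, v)) (fun v => ?_)
      (fun v b hb1 hb2 => hY2 _ b hb1 hb2)
    have h4 := hY.2 (0, v)
    have h5 : (fun b => Y (S.nb b (0, v)) b) = fun b => Y (0, v * (η b)⁻¹) b := by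
      funext b
      have : S.nb b (0, v) = ((v * (η b)⁻¹) • bet b, v * (η b)⁻¹) := by
        simp [Cd.nb, hS, cdOf]
      rw [this, hx]
    rw [h5] at h4
    exact h4
  exact hY0 (funext fun h => by
    obtain ⟨x, v⟩ := h
    rw [hx]
    exact congrFun h3 v)

/-- The endomorphism whose invertibility is the freeness of the module of the words. -/
noncomputable def Phi (bet : B → J) (η : B → Γ) (P0 P1 : Submodule (ZMod 2) (B → ZMod 2))
    (B1 B2 : Finset B) (eps : F) (b0 : B) : (J × Γ → B → F) →ₗ[F] (J × Γ → B → F) where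
  toFun X h b :=
    if b ∈ B1 then ∑ j, dualCk P0 B1 b j • X h j
    else if b ∈ B2 then ∑ j, dualCk P1 B2 b j •
      ((if j ∈ B1 then eps else 1) * X ((cdOf bet η P0 P1 B1 B2 eps b0).nb j h) j)
    else X h b
  map_add' X Y := by
    funext h b
    simp only [Pi.add_apply, smul_add, mul_add, sum_add_distrib]
    split_ifs <;> rfl
  map_smul' c X := by
    funext h b
    simp only [Pi.smul_apply, smul_eq_mul, RingHom.id_apply]
    split_ifs
    · rw [mul_sum]
      exact sum_congr rfl fun j _ => (mul_smul_comm _ _ _).symm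
    · rw [mul_sum]
      refine sum_congr rfl fun j _ => ?_
      rw [mul_left_comm]
      exact (mul_smul_comm _ _ _).symm
    · rfl

theorem isM_of_Phi (hi1 : IsInfo P0 B1) (hc1 : B1.card = Module.finrank (ZMod 2) P0)
    (hi2 : IsInfo P1 B2) (hc2 : B2.card = Module.finrank (ZMod 2) P1) (hd : Disjoint B1 B2)
    {X : J × Γ → B → F}
    (h1 : ∀ h, ∀ b ∈ B1, Phi bet η P0 P1 B1 B2 eps b0 X h b = 0)
    (h2 : ∀ h, ∀ b ∈ B2, Phi bet η P0 P1 B1 B2 eps b0 X h b = 0) :
    (cdOf bet η P0 P1 B1 B2 eps b0).IsM X := by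
  refine ⟨fun h => ?_, fun h => ?_⟩
  · change X h ∈ Wd P0 F
    rw [mem_Wd_iff_dual hi1 hc1]
    intro b hb
    have := h1 h b hb
    simp only [Phi, LinearMap.coe_mk, AddHom.coe_mk] at this
    rwa [if_pos hb] at this
  · change (fun b => (if b ∈ B1 then eps else 1) *
      X ((cdOf bet η P0 P1 B1 B2 eps b0).nb b h) b) ∈ Wd P1 F
    rw [mem_Wd_iff_dual hi2 hc2]
    intro b hb
    have := h2 h b hb
    simp only [Phi, LinearMap.coe_mk, AddHom.coe_mk] at this
    rwa [if_neg (Finset.disjoint_right.1 hd hb), if_pos hb] at this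

/-- **The algebraic hypothesis** for the concrete code. -/
theorem good (two : ∀ x : J, x + x = 0)
    (hi1 : IsInfo P0 B1) (hc1 : B1.card = Module.finrank (ZMod 2) P0)
    (hi2 : IsInfo P1 B2) (hc2 : B2.card = Module.finrank (ZMod 2) P1) (hd : Disjoint B1 B2)
    (hb1 : b0 ∉ B1) (hb2 : b0 ∉ B2)
    (hgen : ∀ f : (ZMod 2)[X], f ≠ 0 →
      f.natDegree ≤ Fintype.card Γ * Fintype.card B → aeval eps f ≠ 0) :
    (cdOf bet η P0 P1 B1 B2 eps b0).Good where
  b0_mem := ⟨hb1, hb2⟩
  two := two
  uniq X hX h := uniq_cdOf two hi1 hc1 hi2 hc2 hd hgen X hX fun h' b h1 h2 => h h' b ⟨h1, h2⟩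
  ex u := by
    have hinj : Function.Injective (Phi bet η P0 P1 B1 B2 eps b0) := by
      rw [← LinearMap.ker_eq_bot, LinearMap.ker_eq_bot']
      intro X hX
      have h0 : ∀ h b, Phi bet η P0 P1 B1 B2 eps b0 X h b = 0 := fun h b => by
        rw [hX]; rfl
      refine uniq_cdOf two hi1 hc1 hi2 hc2 hd hgen X
        (isM_of_Phi hi1 hc1 hi2 hc2 hd (fun h b _ => h0 h b) fun h b _ => h0 h b)
        fun h b h1 h2 => ?_
      have := h0 h b
      simp only [Phi, LinearMap.coe_mk, AddHom.coe_mk] at this
      rwa [if_neg h1, if_neg h2] at this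
    have hsurj := LinearMap.injective_iff_surjective.1 hinj
    obtain ⟨X, hX⟩ := hsurj fun h b => if b ∈ B1 then 0 else if b ∈ B2 then 0 else u h.1
    have h0 : ∀ h b, Phi bet η P0 P1 B1 B2 eps b0 X h b =
        if b ∈ B1 then 0 else if b ∈ B2 then 0 else u h.1 := fun h b => by rw [hX]
    refine ⟨X, isM_of_Phi hi1 hc1 hi2 hc2 hd (fun h b hb => ?_) (fun h b hb => ?_),
      fun h b hb => ?_⟩
    · rw [h0, if_pos hb]
    · rw [h0, if_neg (Finset.disjoint_right.1 hd hb), if_pos hb]
    · have := h0 h b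
      rw [if_neg hb.1, if_neg hb.2] at this
      simp only [Phi, LinearMap.coe_mk, AddHom.coe_mk] at this
      rwa [if_neg hb.1, if_neg hb.2] at this

end whole

end Vale.Agent.P330.W.H624
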