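import Mathlib

/-!
# Degree of functions on an elementary abelian 2-group

`Deg k f`: all `k`-fold derivatives of `f : J → F` vanish (`F` of characteristic two).  Every function
has degree at most `κ` (that is `Deg (κ + 1)`) if `J` has at most `2 ^ κ` elements.  Consequence
(`iter_eq`): the iteration which solves a linear system over the group algebra stops after `κ + 1`
rounds.
-/

namespace Vale.Agent.P330.W.H624

open Finset

variable {J F : Type*} [AddCommGroup J] [CommRing F]

/-- The sum of the `z i` with `ε i = true`. -/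
def sel {k : ℕ} (z : Fin k → J) (ε : Fin k → Bool) : J := ∑ i, if ε i then z i else 0

/-- All `k`-fold derivatives of `f` vanish. -/
def Deg (k : ℕ) (f : J → F) : Prop :=
  ∀ z : Fin k → J, ∀ x, ∑ ε : Fin k → Bool, f (x + sel z ε) = 0

theorem deg_zero_iff {f : J → F} : Deg 0 f ↔ f = 0 := by
  constructor
  · intro h
    funext x
    have := h Fin.elim0 x
    simpa [sel] using this
  · rintro rfl z x
    simp

theorem Deg.add {k : ℕ} {f g : J → F} (hf : Deg k f) (hg : Deg k g) :
    Deg k (fun x => f x + g x) := by
  intro z x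
  rw [sum_add_distrib, hf z x, hg z x, add_zero]

theorem Deg.smul {k : ℕ} {f : J → F} (c : F) (hf : Deg k f) : Deg k (fun x => c * f x) := by
  intro z x
  rw [← mul_sum, hf z x, mul_zero]

theorem Deg.sum {k : ℕ} {ι : Type*} (s : Finset ι) {f : ι → J → F} (hf : ∀ i ∈ s, Deg k (f i)) :
    Deg k (fun x => ∑ i ∈ s, f i x) := by
  intro z x
  rw [sum_comm]
  exact sum_eq_zero fun i hi => hf i hi z x

/-- The derivative lowers the degree. -/
theorem Deg.deriv {k : ℕ} {f : J → F} (hf : Deg (k + 1) f) (w : J) :
    Deg k (fun x => f (x + w) + f x) := by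
  intro z x
  have h := hf (Fin.cons w z) x
  rw [← Fintype.sum_equiv (Fin.consEquiv fun _ => Bool) (fun p : Bool × (Fin k → Bool) =>
    f (x + sel (Fin.cons w z) (Fin.cons p.1 p.2))) _ (fun p => rfl), Fintype.sum_prod_type,
    Fintype.sum_bool] at h
  have h1 : ∀ ε : Fin k → Bool, sel (Fin.cons w z : Fin (k + 1) → J)
      (Fin.cons true ε : Fin (k + 1) → Bool) = w + sel z ε := by
    intro ε
    unfold sel
    rw [Fin.sum_univ_succ]
    simp
  have h2 : ∀ ε : Fin k → Bool, sel (Fin.cons w z : Fin (k + 1) → J)
      (Fin.cons false ε : Fin (k + 1) → Bool) = sel z ε := by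
    intro ε
    unfold sel
    rw [Fin.sum_univ_succ]
    simp
  simp only [h1, h2] at h
  rw [sum_add_distrib]
  have h3 : ∀ ε : Fin k → Bool, x + sel z ε + w = x + (w + sel z ε) := fun ε => by abel
  simp only [h3]
  exact h

/-- Every function has degree at most `κ`. -/
theorem deg_of_card [Fintype J] (two : ∀ x : J, x + x = 0) (htwo : ∀ a : F, a + a = 0) {κ : ℕ}
    (hJ : Fintype.card J ≤ 2 ^ κ) (f : J → F) : Deg (κ + 1) f := by
  intro z x
  obtain ⟨ε, ε', hne, heq⟩ := Fintype.exists_ne_map_eq_of_card_lt (fun ε => sel z ε)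
    (by
      rw [Fintype.card_fun, Fintype.card_bool, Fintype.card_fin, pow_succ]
      have : 0 < 2 ^ κ := by positivity
      omega)
  have hxor : ∀ a b : Fin (κ + 1) → Bool, sel z (fun i => xor (a i) (b i)) = sel z a + sel z b := by
    intro a b
    have hb : ∀ (p q : Bool) (w : J), (if xor p q then w else 0) =
        (if p then w else 0) + (if q then w else 0) := by
      intro p q w
      cases p <;> cases q <;> simp [two]
    unfold sel
    rw [← sum_add_distrib]
    exact sum_congr rfl fun i _ => hb _ _ _
  set ε0 : Fin (κ + 1) → Bool := fun i => xor (ε i) (ε' i) with hε0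
  have h0 : sel z ε0 = 0 := by
    rw [hε0, hxor]
    have : sel z ε = sel z ε' := heq
    rw [this, two]
  obtain ⟨i0, hi0⟩ := Function.ne_iff.1 hne
  have hi0' : ε0 i0 = true := by
    simp only [hε0]
    have hb : ∀ p q : Bool, p ≠ q → xor p q = true := by decide
    exact hb _ _ hi0
  refine sum_involution (fun a _ => fun i => xor (a i) (ε0 i)) ?_ ?_ (fun _ _ => mem_univ _) ?_
  · intro a _
    rw [hxor, h0, add_zero, htwo]
  · intro a _ _ h
    have h1 := congrFun h i0
    have hb : ∀ p : Bool, xor p true ≠ p := by decide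
    simp only [hi0'] at h1
    exact hb _ h1
  · intro a _
    have hb : ∀ p q : Bool, xor (xor p q) q = p := by decide
    funext i
    exact hb _ _

/-! ### The iteration -/

section iter

variable {ι : Type*} [Fintype ι]

/-- One round: `y i` becomes `r i` plus the combination with coefficients `β` of the derivatives
of the `y (src m)` in the directions `z m`. -/
def rnd (β : ι → ι → F) (src : ι → ι) (z : ι → J) (r y : ι → J → F) : ι → J → F :=
  fun i x => r i x + ∑ m, β i m * (y (src m) (x + z m) + y (src m) x)

/-- **The iteration stops.** -/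
theorem iter_eq [Fintype J] (two : ∀ x : J, x + x = 0) (htwo : ∀ a : F, a + a = 0) {κ : ℕ}
    (hJ : Fintype.card J ≤ 2 ^ κ) {β : ι → ι → F} {src : ι → ι} {z : ι → J} {r y : ι → J → F}
    (hy : rnd β src z r y = y) (y0 : ι → J → F) : (rnd β src z r)^[κ + 1] y0 = y := by
  have key : ∀ k ≤ κ + 1, ∀ i, Deg (κ + 1 - k) (fun x => (rnd β src z r)^[k] y0 i x + y i x) := by
    intro k
    induction k with
    | zero => intro _ i; exact deg_of_card two htwo hJ _
    | succ k ih =>
      intro hk i
      have ih' := ih (by omega)
      have h1 : (fun x => (rnd β src z r)^[k + 1] y0 i x + y i x) = fun x =>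
          ∑ m, β i m * (((rnd β src z r)^[k] y0 (src m) (x + z m) + y (src m) (x + z m)) +
            ((rnd β src z r)^[k] y0 (src m) x + y (src m) x)) := by
        funext x
        rw [Function.iterate_succ_apply']
        have h2 := congrFun (congrFun hy i) x
        rw [← h2]
        have h3 : ∀ a b c d : F, a + b + (a + c) = b + c := fun a b c _ => by
          calc a + b + (a + c) = (a + a) + (b + c) := by ring
            _ = b + c := by rw [htwo, zero_add]
        simp only [rnd]
        rw [h3 _ _ _ 0, ← sum_add_distrib]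
        refine sum_congr rfl fun m _ => ?_
        ring
      rw [h1]
      refine Deg.sum _ fun m _ => Deg.smul _ ?_
      have h4 : κ + 1 - k = (κ + 1 - (k + 1)) + 1 := by omega
      have h5 := ih' (src m)
      rw [h4] at h5
      exact h5.deriv (z m)
  have h := key (κ + 1) le_rfl
  funext i x
  have h1 := h i
  rw [Nat.sub_self, deg_zero_iff] at h1
  have h2 := congrFun h1 x
  simp only [Pi.zero_apply] at h2
  calc (rnd β src z r)^[κ + 1] y0 i x
      = ((rnd β src z r)^[κ + 1] y0 i x + y i x) + y i x := by
        rw [add_assoc, htwo, add_zero]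
    _ = y i x := by rw [h2, zero_add]

end iter

end Vale.Agent.P330.W.H624
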