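import Vale.Agent.P330.W.H624.Good
import Vale.Agent.P330.W.H624.Deg

/-!
# The Neumann iteration for the concrete code

`matP`, `matQ`: the coefficients of the system of the values `u * G_(v,b)`; `matH`: the system modulo
the augmentation ideal; `matA`: its inverse; `beta = matA * matQ`.  `fix_G`, `fix_D`: the functions
`u * G_(v,b)` and `u * (φ G_(v,b))` are fixed points of one round of the iteration.
-/

namespace Vale.Agent.P330.W.H624

open Finset Polynomial Vale.Agent.P330.H155 Vale.Agent.P330.W.H972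

section defs

variable {J Γ B F : Type*} [AddCommGroup J] [Group Γ] [DistribMulAction Γ J] [Field F]
  [Algebra (ZMod 2) F] [DecidableEq Γ] [DecidableEq B]

/-- The index of the word read by the right check. -/
def srcB (η : B → Γ) (m : Γ × B) : Γ × B := (m.1 * (η m.2)⁻¹, m.2)

/-- The inverse of `srcB`. -/
def srcInv (η : B → Γ) (m : Γ × B) : Γ × B := (m.1 * η m.2, m.2)

/-- The translation of the right check. -/
def zB (bet : B → J) (η : B → Γ) (m : Γ × B) : J := (m.1 * (η m.2)⁻¹) • bet m.2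

variable [Fintype B]

/-- Left checks and the identity at the information labels. -/
noncomputable def matP (F : Type*) [Field F] [Algebra (ZMod 2) F]
    (P0 : Submodule (ZMod 2) (B → ZMod 2)) (B1 B2 : Finset B) (i m : Γ × B) : F :=
  if m.1 = i.1 then
    (if i.2 ∈ B1 then algebraMap (ZMod 2) F (dualCk P0 B1 i.2 m.2)
    else if i.2 ∈ B2 then 0 else if m.2 = i.2 then 1 else 0)
  else 0

/-- Right checks. -/
noncomputable def matQ (P1 : Submodule (ZMod 2) (B → ZMod 2)) (B1 B2 : Finset B) (eps : F)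
    (i m : Γ × B) : F :=
  if m.1 = i.1 ∧ i.2 ∉ B1 ∧ i.2 ∈ B2 then
    algebraMap (ZMod 2) F (dualCk P1 B2 i.2 m.2) * (if m.2 ∈ B1 then eps else 1)
  else 0

/-- The system modulo the augmentation ideal. -/
noncomputable def matH (η : B → Γ) (P0 P1 : Submodule (ZMod 2) (B → ZMod 2)) (B1 B2 : Finset B)
    (eps : F) : Matrix (Γ × B) (Γ × B) F := fun i m =>
  matP F P0 B1 B2 i m + matQ P1 B1 B2 eps i (srcInv η m)

variable [Fintype Γ]

/-- Its inverse. -/
noncomputable def matA (η : B → Γ) (P0 P1 : Submodule (ZMod 2) (B → ZMod 2)) (B1 B2 : Finset B)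
    (eps : F) : Matrix (Γ × B) (Γ × B) F := (matH η P0 P1 B1 B2 eps)⁻¹

/-- The coefficients of the iteration. -/
noncomputable def beta (η : B → Γ) (P0 P1 : Submodule (ZMod 2) (B → ZMod 2)) (B1 B2 : Finset B)
    (eps : F) (i m : Γ × B) : F :=
  ∑ k, matA η P0 P1 B1 B2 eps i k * matQ P1 B1 B2 eps k m

/-- The right hand side after multiplication by the inverse. -/
noncomputable def mulA (A : Matrix (Γ × B) (Γ × B) F) (r : Γ × B → J → F) : Γ × B → J → F :=
  fun i x => ∑ k, A i k * r k x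

end defs

section main

variable {J Γ B F : Type*} [AddCommGroup J] [Group Γ] [DistribMulAction Γ J] [Field F]
  [Algebra (ZMod 2) F] [DecidableEq Γ] [DecidableEq B] [Fintype B] [Fintype Γ]
  {bet : B → J} {η : B → Γ} {P0 P1 : Submodule (ZMod 2) (B → ZMod 2)} {B1 B2 : Finset B}
  {eps : F} {b0 : B}

theorem add_self_F (F : Type*) [Field F] [Algebra (ZMod 2) F] (a : F) : a + a = 0 := by
  have := zmod_neg F a
  nth_rewrite 1 [← this]
  exact neg_add_cancel a

omit [Fintype B] [Fintype Γ] [DecidableEq Γ] [DecidableEq B] in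
theorem srcInv_srcB (m : Γ × B) : srcInv η (srcB η m) = m := by
  simp [srcInv, srcB]

omit [Fintype B] [Fintype Γ] [DecidableEq Γ] [DecidableEq B] in
theorem srcB_srcInv (m : Γ × B) : srcB η (srcInv η m) = m := by
  simp [srcInv, srcB]

/-- `srcB` is a permutation. -/
def srcE (η : B → Γ) : Γ × B ≃ Γ × B where
  toFun := srcB η
  invFun := srcInv η
  left_inv := srcInv_srcB
  right_inv := srcB_srcInv

/-- The sum over the left checks. -/
theorem sum_matP (i : Γ × B) (y : Γ × B → F) :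
    ∑ m, matP F P0 B1 B2 i m * y m =
      if i.2 ∈ B1 then ∑ j, dualCk P0 B1 i.2 j • y (i.1, j)
      else if i.2 ∈ B2 then 0 else y i := by
  obtain ⟨v, b⟩ := i
  rw [Fintype.sum_prod_type, sum_eq_single v]
  · simp only [matP, if_true]
    split_ifs
    · refine sum_congr rfl fun j _ => ?_
      rw [Algebra.smul_def]
    · simp
    · rw [sum_eq_single b]
      · simp
      · intro j _ hj
        rw [if_neg hj, zero_mul]
      · intro h; exact absurd (mem_univ _) h
  · intro w _ hw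
    refine sum_eq_zero fun j _ => ?_
    simp only [matP]
    rw [if_neg hw, zero_mul]
  · intro h; exact absurd (mem_univ _) h

/-- The sum over the right checks. -/
theorem sum_matQ (i : Γ × B) (y : Γ × B → F) :
    ∑ m, matQ P1 B1 B2 eps i m * y m =
      if i.2 ∉ B1 ∧ i.2 ∈ B2 then
        ∑ j, dualCk P1 B2 i.2 j • ((if j ∈ B1 then eps else 1) * y (i.1, j))
      else 0 := by
  obtain ⟨v, b⟩ := i
  rw [Fintype.sum_prod_type, sum_eq_single v]
  · simp only [matQ, true_and]
    split_ifs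
    · refine sum_congr rfl fun j _ => ?_
      rw [Algebra.smul_def, mul_assoc]
    · simp
  · intro w _ hw
    refine sum_eq_zero fun j _ => ?_
    simp only [matQ]
    rw [if_neg (fun h => hw h.1), zero_mul]
  · intro h; exact absurd (mem_univ _) h

/-- The sum over the system modulo the augmentation ideal. -/
theorem sum_matH (i : Γ × B) (y : Γ × B → F) :
    ∑ m, matH η P0 P1 B1 B2 eps i m * y m =
      ∑ m, matP F P0 B1 B2 i m * y m + ∑ m, matQ P1 B1 B2 eps i m * y (srcB η m) := by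
  simp only [matH, add_mul, sum_add_distrib]
  congr 1
  rw [← Equiv.sum_comp (srcE η)]
  refine sum_congr rfl fun m _ => ?_
  change matQ P1 B1 B2 eps i (srcInv η (srcB η m)) * y (srcB η m) = _
  rw [srcInv_srcB]

theorem matA_mul (hi1 : IsInfo P0 B1) (hc1 : B1.card = Module.finrank (ZMod 2) P0)
    (hi2 : IsInfo P1 B2) (hc2 : B2.card = Module.finrank (ZMod 2) P1) (hd : Disjoint B1 B2)
    (hgen : ∀ f : (ZMod 2)[X], f ≠ 0 →
      f.natDegree ≤ Fintype.card Γ * Fintype.card B → aeval eps f ≠ 0) :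
    matA η P0 P1 B1 B2 eps * matH η P0 P1 B1 B2 eps = 1 := by
  unfold matA
  refine Matrix.nonsing_inv_mul _ (isUnit_iff_ne_zero.2 fun h0 => ?_)
  obtain ⟨y, hy, hy0⟩ := Matrix.exists_mulVec_eq_zero_iff.2 h0
  apply hy
  have hrow : ∀ i, ∑ m, matP F P0 B1 B2 i m * y m +
      ∑ m, matQ P1 B1 B2 eps i m * y (srcB η m) = 0 := by
    intro i
    rw [← sum_matH]
    exact congrFun hy0 i
  have h3 : (fun (v : Γ) (b : B) => y (v, b)) = 0 := by
    refine red_trivial (η := η) (P0 := P0) (P1 := P1) (B1 := B1) (B2 := B2) (eps := eps)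
      hi1 hc1 hi2 hc2 hd hgen (fun v => ?_) (fun v => ?_) fun v b h1 h2 => ?_
    · rw [mem_Wd_iff_dual hi1 hc1]
      intro b hb
      have h := hrow (v, b)
      rw [sum_matP, sum_matQ] at h
      simp only at h
      rw [if_pos hb, if_neg (fun h' => h'.1 hb), add_zero] at h
      exact h
    · rw [mem_Wd_iff_dual hi2 hc2]
      intro b hb
      have hb1 : b ∉ B1 := Finset.disjoint_right.1 hd hb
      have h := hrow (v, b)
      rw [sum_matP, sum_matQ (y := fun m => y (srcB η m))] at h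
      simp only at h
      rw [if_neg hb1, if_pos hb, if_pos ⟨hb1, hb⟩, zero_add] at h
      exact h
    · have h := hrow (v, b)
      rw [sum_matP, sum_matQ] at h
      simp only at h
      rw [if_neg h1, if_neg h2, if_neg (fun h' => h2 h'.2), add_zero] at h
      exact h
  funext i
  exact congrFun (congrFun h3 i.1) i.2

/-- A solution of the system is a fixed point of the iteration. -/
theorem fix_of_system (hA : matA η P0 P1 B1 B2 eps * matH η P0 P1 B1 B2 eps = 1)
    {r y : Γ × B → J → F}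
    (h : ∀ i x, ∑ m, matP F P0 B1 B2 i m * y m x +
      ∑ m, matQ P1 B1 B2 eps i m * y (srcB η m) (x + zB bet η m) = r i x) :
    rnd (beta η P0 P1 B1 B2 eps) (srcB η) (zB bet η)
      (mulA (matA η P0 P1 B1 B2 eps) r) y = y := by
  funext i x
  have h1 : y i x = ∑ k, matA η P0 P1 B1 B2 eps i k *
      ∑ m, matH η P0 P1 B1 B2 eps k m * y m x := by
    have h2 : (matA η P0 P1 B1 B2 eps).mulVec ((matH η P0 P1 B1 B2 eps).mulVec
        (fun m => y m x)) = fun m => y m x := by
      rw [Matrix.mulVec_mulVec, hA, Matrix.one_mulVec]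
    exact (congrFun h2 i).symm
  have h2 : ∀ k, ∑ m, matH η P0 P1 B1 B2 eps k m * y m x =
      r k x + ∑ m, matQ P1 B1 B2 eps k m * (y (srcB η m) (x + zB bet η m) + y (srcB η m) x) := by
    intro k
    rw [sum_matH, ← h k x]
    simp only [mul_add, sum_add_distrib]
    have h3 := add_self_F F
    set a := ∑ m, matP F P0 B1 B2 k m * y m x
    set b := ∑ m, matQ P1 B1 B2 eps k m * y (srcB η m) x
    set c := ∑ m, matQ P1 B1 B2 eps k m * y (srcB η m) (x + zB bet η m)
    calc a + b = a + b + (c + c) := by rw [h3, add_zero]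
      _ = _ := by ring
  rw [h1]
  simp only [h2, mul_add, sum_add_distrib]
  unfold rnd mulA beta
  simp only [mul_add, sum_add_distrib]
  have h4 : ∀ f : Γ × B → F, ∑ m, (∑ k, matA η P0 P1 B1 B2 eps i k * matQ P1 B1 B2 eps k m) * f m =
      ∑ k, matA η P0 P1 B1 B2 eps i k * ∑ m, matQ P1 B1 B2 eps k m * f m := by
    intro f
    simp only [sum_mul, mul_sum]
    rw [sum_comm]
    refine sum_congr rfl fun k _ => sum_congr rfl fun m _ => ?_
    ring
  rw [h4, h4]

variable [Fintype J]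

/-- The words `u * G_(v,b)` as functions of the index. -/
noncomputable def yG (S : Cd J Γ B F) (u : J → F) (m : Γ × B) : J → F := conv u (S.G m.1 m.2)

/-- The words `u * (φ G_(v,b))`. -/
noncomputable def yD (S : Cd J Γ B F) (φ : J → F) (u : J → F) (m : Γ × B) : J → F :=
  conv u fun z => φ z * S.G m.1 m.2 z

/-- The right hand side for `u * G`. -/
def rG (B1 B2 : Finset B) (u : J → F) (i : Γ × B) : J → F :=
  fun x => if i.2 ∉ B1 ∧ i.2 ∉ B2 then u x else 0

/-- The right hand side for `u * (φ G)`. -/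
noncomputable def rD (bet : B → J) (η : B → Γ) (P1 : Submodule (ZMod 2) (B → ZMod 2))
    (B1 B2 : Finset B) (eps : F) (φ : J → F) (y : Γ × B → J → F) (i : Γ × B) : J → F :=
  fun x => ∑ m, matQ P1 B1 B2 eps i m * φ (zB bet η m) * y (srcB η m) (x + zB bet η m)

theorem system_G (hS : (cdOf bet η P0 P1 B1 B2 eps b0).Good) (u : J → F)
    (i : Γ × B) (x : J) :
    ∑ m, matP F P0 B1 B2 i m * yG (cdOf bet η P0 P1 B1 B2 eps b0) u m x +
      ∑ m, matQ P1 B1 B2 eps i m *
        yG (cdOf bet η P0 P1 B1 B2 eps b0) u (srcB η m) (x + zB bet η m) = rG B1 B2 u i x := by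
  set S := cdOf bet η P0 P1 B1 B2 eps b0 with hSd
  have hE : ∀ (m : Γ × B) x, yG S u m x = S.E u (x, m.1) m.2 := fun m x =>
    (Cd.E_eq_conv hS u x m.1 m.2).symm
  have hM := Cd.E_isM hS u
  obtain ⟨v, b⟩ := i
  simp only [hE]
  rw [sum_matP (y := fun m => S.E u (x, m.1) m.2),
    sum_matQ (y := fun m => S.E u (x + zB bet η m, (srcB η m).1) (srcB η m).2)]
  simp only [rG]
  by_cases hb1 : b ∈ B1
  · rw [if_pos hb1, if_neg (fun h => h.1 hb1), if_neg (fun h => h.1 hb1), add_zero]
    exact hM.1 (x, v) _ (dualCk_mem b)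
  · by_cases hb2 : b ∈ B2
    · rw [if_neg hb1, if_pos hb2, if_pos ⟨hb1, hb2⟩, if_neg (fun h => h.2 hb2), zero_add]
      exact hM.2 (x, v) _ (dualCk_mem b)
    · rw [if_neg hb1, if_neg hb2, if_neg (fun h => hb2 h.2), if_pos ⟨hb1, hb2⟩, add_zero]
      exact Cd.E_info hS u (x, v) (b := b) ⟨hb1, hb2⟩

/-- **Fixed point** for `u * G`. -/
theorem fix_G (hA : matA η P0 P1 B1 B2 eps * matH η P0 P1 B1 B2 eps = 1)
    (hS : (cdOf bet η P0 P1 B1 B2 eps b0).Good) (u : J → F) :
    rnd (beta η P0 P1 B1 B2 eps) (srcB η) (zB bet η)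
      (mulA (matA η P0 P1 B1 B2 eps) (rG B1 B2 u)) (yG (cdOf bet η P0 P1 B1 B2 eps b0) u) =
      yG (cdOf bet η P0 P1 B1 B2 eps b0) u :=
  fix_of_system hA (system_G hS u)

theorem yD_eq {φ : J → F}
    (hφ : ∀ x y, φ (x + y) = φ x + φ y) (u : J → F) (m : Γ × B) (x : J) :
    yD (cdOf bet η P0 P1 B1 B2 eps b0) φ u m x =
      φ x * yG (cdOf bet η P0 P1 B1 B2 eps b0) u m x +
        yG (cdOf bet η P0 P1 B1 B2 eps b0) (fun z => φ z * u z) m x := by
  unfold yD yG
  have h := conv_deriv φ hφ u ((cdOf bet η P0 P1 B1 B2 eps b0).G m.1 m.2) x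
  rw [h]
  have h2 := add_self_F F
  set a := conv (fun z => φ z * u z) ((cdOf bet η P0 P1 B1 B2 eps b0).G m.1 m.2) x
  set b := conv u (fun z => φ z * (cdOf bet η P0 P1 B1 B2 eps b0).G m.1 m.2 z) x
  calc b = b + (a + a) := by rw [h2, add_zero]
    _ = _ := by ring

theorem system_D (hS : (cdOf bet η P0 P1 B1 B2 eps b0).Good) {φ : J → F}
    (hφ : ∀ x y, φ (x + y) = φ x + φ y) (u : J → F) (i : Γ × B) (x : J) :
    ∑ m, matP F P0 B1 B2 i m * yD (cdOf bet η P0 P1 B1 B2 eps b0) φ u m x +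
      ∑ m, matQ P1 B1 B2 eps i m *
        yD (cdOf bet η P0 P1 B1 B2 eps b0) φ u (srcB η m) (x + zB bet η m) =
      rD bet η P1 B1 B2 eps φ (yG (cdOf bet η P0 P1 B1 B2 eps b0) u) i x := by
  set S := cdOf bet η P0 P1 B1 B2 eps b0 with hSd
  have h1 := system_G hS u i x
  have h2 := system_G hS (fun z => φ z * u z) i x
  have hy : ∀ m x, yD S φ u m x = φ x * yG S u m x + yG S (fun z => φ z * u z) m x :=
    fun m x => yD_eq hφ u m x
  simp only [hy]
  simp only [mul_add, sum_add_distrib]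
  have e1 : ∑ m, matP F P0 B1 B2 i m * (φ x * yG S u m x) =
      φ x * ∑ m, matP F P0 B1 B2 i m * yG S u m x := by
    rw [mul_sum]
    exact sum_congr rfl fun m _ => by ring
  have e2 : ∑ m, matQ P1 B1 B2 eps i m * (φ (x + zB bet η m) *
      yG S u (srcB η m) (x + zB bet η m)) =
      φ x * ∑ m, matQ P1 B1 B2 eps i m * yG S u (srcB η m) (x + zB bet η m) +
        rD bet η P1 B1 B2 eps φ (yG S u) i x := by
    unfold rD
    rw [mul_sum, ← sum_add_distrib]
    refine sum_congr rfl fun m _ => ?_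
    rw [hφ]
    ring
  rw [e1, e2]
  have h3 : φ x * rG B1 B2 u i x = rG B1 B2 (fun z => φ z * u z) i x := by
    unfold rG
    split_ifs
    · rfl
    · rw [mul_zero]
  have h4 := add_self_F F
  set a := ∑ m, matP F P0 B1 B2 i m * yG S u m x
  set b := ∑ m, matQ P1 B1 B2 eps i m * yG S u (srcB η m) (x + zB bet η m)
  set c := ∑ m, matP F P0 B1 B2 i m * yG S (fun z => φ z * u z) m x
  set d := ∑ m, matQ P1 B1 B2 eps i m * yG S (fun z => φ z * u z) (srcB η m) (x + zB bet η m)
  set w := rD bet η P1 B1 B2 eps φ (yG S u) i x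
  calc φ x * a + c + (φ x * b + w + d) = φ x * (a + b) + (c + d) + w := by ring
    _ = w := by rw [h1, h2, h3, h4, zero_add]

/-- **Fixed point** for `u * (φ G)`. -/
theorem fix_D (hA : matA η P0 P1 B1 B2 eps * matH η P0 P1 B1 B2 eps = 1)
    (hS : (cdOf bet η P0 P1 B1 B2 eps b0).Good) {φ : J → F}
    (hφ : ∀ x y, φ (x + y) = φ x + φ y) (u : J → F) :
    rnd (beta η P0 P1 B1 B2 eps) (srcB η) (zB bet η)
      (mulA (matA η P0 P1 B1 B2 eps)
        (rD bet η P1 B1 B2 eps φ (yG (cdOf bet η P0 P1 B1 B2 eps b0) u)))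
      (yD (cdOf bet η P0 P1 B1 B2 eps b0) φ u) =
      yD (cdOf bet η P0 P1 B1 B2 eps b0) φ u :=
  fix_of_system hA (system_D hS hφ u)

end main

end Vale.Agent.P330.W.H624
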