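import Vale.Agent.P330.W.H624.KitDefs
import Vale.Agent.P330.W.H624.Neu

/-!
# The kit: the hypotheses on the tables
-/

namespace Vale.Agent.P330.W.H624

open Finset Vale.Agent.P330.H155 Vale.Agent.P330.H16

/-- The tables are correct. -/
structure KP.OK {J Γ B F iJ iG : Type} [AddCommGroup J] [Group Γ] [DistribMulAction Γ J]
    [Field F] [Algebra (ZMod 2) F] [DecidableEq Γ] [DecidableEq B] [Fintype Γ] [Fintype B]
    (P : KP F iJ iG Γ B) (g : Gen J Γ F iJ iG) {κ q : ℕ} (ψ : J ≃+ V2 κ)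
    (en : Fin q ≃ Γ × B) (bet : B → J) (η : B → Γ) (P0 P1 : Submodule (ZMod 2) (B → ZMod 2))
    (B1 B2 : Finset B) (eps : F) : Prop where
  M_eq : P.M = q
  κ_eq : P.κ = κ
  Lw_pos : 0 < P.Lw
  nP_eq : P.nP = g.nP
  nE_eq : P.nE = g.nE
  κ_le : κ ≤ g.nE
  nE_le : g.nE ≤ P.M
  /-- the additive functions are additive -/
  phi_add : ∀ p < g.nP, ∀ x y, g.phi p (x + y) = g.phi p x + g.phi p y
  /-- the translations are those by the basis -/
  eb : ∀ j < κ, g.eb j = ψ.symm (e κ j)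
  ix : ∀ v b, P.ix v b = (en.symm (v, b)).val
  cG : ∀ i, P.cG (en.symm i).val =
    ∑ k, matA η P0 P1 B1 B2 eps i k * if k.2 ∉ B1 ∧ k.2 ∉ B2 then 1 else 0
  be : ∀ i m, P.be (en.symm i).val (en.symm m).val = beta η P0 P1 B1 B2 eps i m
  dp : ∀ p < g.nP, ∀ i m, P.dp p (en.symm i).val (en.symm m).val =
    ∑ k, matA η P0 P1 B1 B2 eps i k * (matQ P1 B1 B2 eps k m * g.phi p (zB bet η m))
  sr : ∀ m, P.sr (en.symm m).val = (en.symm (srcB η m)).val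
  wz : ∀ m x, ptW g.sJ g.gG P.dJ P.dG (P.wz (en.symm m).val) x = x + zB bet η m
  wz_len : ∀ m : Γ × B, (P.wz (en.symm m).val).length ≤ P.Lw
  we : ∀ j < g.nE, ∀ x, ptW g.sJ g.gG P.dJ P.dG (P.we j) x = x + g.eb j
  we_len : ∀ j < g.nE, (P.we j).length ≤ P.Lw
  wv : ∀ (m : Γ × B) x, ptW g.sJ g.gG P.dJ P.dG (P.wv (en.symm m).val) x = m.1 • x
  wv_len : ∀ m : Γ × B, (P.wv (en.symm m).val).length ≤ P.Lw

end Vale.Agent.P330.W.H624
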