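import Vale.Agent.P330.W.H624.KitVal

/-!
# The kit: all its registers

`kitOK`: the kit of correct tables satisfies `RS.KitOK` for the concrete code.
-/

namespace Vale.Agent.P330.W.H624

open Finset Vale.Agent.P330.H155 Vale.Agent.P330.H16

namespace KP

section positions

variable {Γ B iJ iG F : Type} {P : KP F iJ iG Γ B}

/-- The start of the system for the additive function `p`. -/
def cp (P : KP F iJ iG Γ B) (p : ℕ) : ℕ := P.NS + P.Lw + p * (P.NS + 1)

theorem NS_eq (P : KP F iJ iG Γ B) : P.NS = 1 + P.κ * P.R1 := rfl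

theorem cp_lt {p : ℕ} (hp : p < P.nP) : P.cp p + P.NS + 1 ≤ P.sT := by
  have h1 : (p + 1) * (P.NS + 1) ≤ P.nP * (P.NS + 1) := Nat.mul_le_mul_right _ hp
  have h2 : (p + 1) * (P.NS + 1) = p * (P.NS + 1) + (P.NS + 1) := Nat.succ_mul _ _
  have h3 : P.sT = P.NS + P.Lw + P.nP * (P.NS + 1) := rfl
  have h4 : P.cp p = P.NS + P.Lw + p * (P.NS + 1) := rfl
  omega

theorem ds_A0 : P.ds 0 = .u0 false := by
  have := NS_eq P
  unfold ds
  rw [if_pos (by omega), if_pos rfl]

theorem ds_A {i : ℕ} (hi : i < P.κ * P.R1) : P.ds (0 + 1 + i) = P.solD 0 i := by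
  have := NS_eq P
  unfold ds
  rw [if_pos (by omega), if_neg (by omega), show 0 + 1 + i - 1 = i by omega]

theorem ds_B {j : ℕ} (hj : j < P.Lw) : P.ds (P.NS + j) = chD P.NS 0 (P.NS - 1) true j := by
  unfold ds
  rw [if_neg (by omega), if_pos (by omega), show P.NS + j - P.NS = j by omega]

theorem ds_C {p i : ℕ} (hp : p < P.nP) (hi : i < P.NS + 1) : P.ds (P.cp p + i) =
    if i = 0 then .rhsD p (P.NS + P.Lw - 1) else if i = P.NS then .t2 p (P.cp p + P.NS - 1)
    else P.solD (P.cp p) (i - 1) := by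
  have h1 := cp_lt hp
  have h4 : P.cp p = P.NS + P.Lw + p * (P.NS + 1) := rfl
  unfold ds
  rw [if_neg (by omega), if_neg (by omega), if_pos (by omega)]
  rw [show P.cp p + i - (P.NS + P.Lw) = p * (P.NS + 1) + i by omega, div_lem hi, mod_lem hi]
  rfl

theorem ds_C0 {p : ℕ} (hp : p < P.nP) : P.ds (P.cp p) = .rhsD p (P.NS + P.Lw - 1) := by
  have := ds_C (i := 0) hp (Nat.succ_pos _)
  rwa [if_pos rfl] at this

theorem ds_Ci {p i : ℕ} (hp : p < P.nP) (hi : i < P.κ * P.R1) :
    P.ds (P.cp p + 1 + i) = P.solD (P.cp p) i := by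
  have h0 := NS_eq P
  have := ds_C (i := 1 + i) hp (by omega)
  rwa [if_neg (by omega), if_neg (by omega), ← add_assoc, show 1 + i - 1 = i by omega] at this

theorem ds_Ct {p : ℕ} (hp : p < P.nP) : P.ds (P.cp p + P.NS) = .t2 p (P.cp p + P.NS - 1) := by
  have h0 := NS_eq P
  have := ds_C (i := P.NS) hp (by omega)
  rwa [if_neg (by omega), if_pos rfl] at this

theorem ds_D0 : P.ds P.sT = .u0 true := by
  have h3 : P.sT = P.NS + P.Lw + P.nP * (P.NS + 1) := rfl
  have h4 : P.sS = P.sT + 1 + P.Lw := rfl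
  unfold ds
  rw [if_neg (by omega), if_neg (by omega), if_neg (by omega), if_pos (by omega), if_pos rfl]

theorem ds_D {j : ℕ} (hj : j < P.Lw) : P.ds (P.sT + 1 + j) = chD (P.sT + 1) 1 P.sT false j := by
  have h3 : P.sT = P.NS + P.Lw + P.nP * (P.NS + 1) := rfl
  have h4 : P.sS = P.sT + 1 + P.Lw := rfl
  unfold ds
  rw [if_neg (by omega), if_neg (by omega), if_neg (by omega), if_pos (by omega),
    if_neg (by omega), show P.sT + 1 + j - P.sT - 1 = j by omega]

theorem ds_E0 : P.ds P.sS = .u0 true := by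
  have h0 := NS_eq P
  have h3 : P.sT = P.NS + P.Lw + P.nP * (P.NS + 1) := rfl
  have h4 : P.sS = P.sT + 1 + P.Lw := rfl
  have h5 : P.sB = P.sS + P.NS := rfl
  unfold ds
  rw [if_neg (by omega), if_neg (by omega), if_neg (by omega), if_neg (by omega),
    if_pos (by omega), if_pos rfl]

theorem ds_E {i : ℕ} (hi : i < P.κ * P.R1) : P.ds (P.sS + 1 + i) = P.sumD P.sS i := by
  have h0 := NS_eq P
  have h3 : P.sT = P.NS + P.Lw + P.nP * (P.NS + 1) := rfl
  have h4 : P.sS = P.sT + 1 + P.Lw := rfl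
  have h5 : P.sB = P.sS + P.NS := rfl
  unfold ds
  rw [if_neg (by omega), if_neg (by omega), if_neg (by omega), if_neg (by omega),
    if_pos (by omega), if_neg (by omega), show P.sS + 1 + i - P.sS - 1 = i by omega]

theorem ds_F (j : ℕ) : P.ds (P.sB + j) = chD P.sB 2 (P.NS - 1) false j := by
  have h0 := NS_eq P
  have h3 : P.sT = P.NS + P.Lw + P.nP * (P.NS + 1) := rfl
  have h4 : P.sS = P.sT + 1 + P.Lw := rfl
  have h5 : P.sB = P.sS + P.NS := rfl
  unfold ds
  rw [if_neg (by omega), if_neg (by omega), if_neg (by omega), if_neg (by omega),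
    if_neg (by omega), show P.sB + j - P.sB = j by omega]

theorem chD_ne {a t n : ℕ} {s : Bool} {j p n' : ℕ} : chD a t n s j ≠ .t2 p n' := by
  unfold chD
  split_ifs <;> exact Dsc.noConfusion

theorem solD_ne {a i p n' : ℕ} : P.solD a i ≠ .t2 p n' := by
  unfold solD
  split_ifs
  · exact chD_ne
  · exact Dsc.noConfusion

theorem sumD_ne {a i p n' : ℕ} : P.sumD a i ≠ .t2 p n' := by
  unfold sumD
  split_ifs
  · exact chD_ne
  · exact Dsc.noConfusion

theorem ds_t2 {n p n' : ℕ} (h : P.ds n = .t2 p n') :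
    p < P.nP ∧ n = P.cp p + P.NS ∧ n' = P.cp p + P.NS - 1 := by
  have h3 : P.sT = P.NS + P.Lw + P.nP * (P.NS + 1) := rfl
  unfold ds at h
  split_ifs at h with h1 h2 h3' h4 h5 h6 h7
  · exact absurd h solD_ne
  · exact absurd h chD_ne
  · have h5 := Nat.div_add_mod (n - (P.NS + P.Lw)) (P.NS + 1)
    have h6 : (n - (P.NS + P.Lw)) % (P.NS + 1) < P.NS + 1 := Nat.mod_lt _ (Nat.succ_pos _)
    set Q := (n - (P.NS + P.Lw)) / (P.NS + 1) with hQ
    set r := (n - (P.NS + P.Lw)) % (P.NS + 1)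
    have h7 : (P.NS + 1) * Q = Q * (P.NS + 1) := Nat.mul_comm _ _
    simp only at h
    split_ifs at h with h8 h9
    · injection h with e1 e2
      subst e1
      have hQlt : Q < P.nP := by
        rw [hQ]
        apply Nat.div_lt_of_lt_mul
        rw [Nat.mul_comm]
        omega
      refine ⟨hQlt, ?_, ?_⟩
      · unfold cp; omega
      · rw [← e2]; rfl
    · exact absurd h solD_ne
  · exact absurd h chD_ne
  · exact absurd h sumD_ne
  · exact absurd h chD_ne

end positions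

end KP

section final

variable {J Γ B iJ iG : Type} {F : Type} [AddCommGroup J] [Group Γ] [DistribMulAction Γ J]
  [Field F] {P : KP F iJ iG Γ B} {g : Gen J Γ F iJ iG} {u : J → F}
  [Fintype Γ] [Fintype B] [Fintype J]
  [Algebra (ZMod 2) F] [DecidableEq Γ] [DecidableEq B] {κ q : ℕ} {ψ : J ≃+ V2 κ}
  {en : Fin q ≃ Γ × B} {bet : B → J} {η : B → Γ} {P0 P1 : Submodule (ZMod 2) (B → ZMod 2)}
  {B1 B2 : Finset B} {eps : F} {b0 : B}

omit [Fintype J] in
theorem kval_dval (hO : P.OK g ψ en bet η P0 P1 B1 B2 eps) (u : J → F) (n m : ℕ)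
    (hm : m < P.M) :
    kval g P.kit u (P.rg n m) =
      P.dval g u (fun a i => kval g P.kit u (P.rg a i)) m (P.ds n) :=
  KP.kval_layer u hO.Lw_pos hO.sr_lt n m hm

theorem val_Y (hO : P.OK g ψ en bet η P0 P1 B1 B2 eps)
    (hA : matA η P0 P1 B1 B2 eps * matH η P0 P1 B1 B2 eps = 1)
    (hG : (cdOf bet η P0 P1 B1 B2 eps b0).Good) (u : J → F) (m : Γ × B) :
    kval g P.kit u (P.rg (P.NS - 1) (en.symm m).val) =
      yG (cdOf bet η P0 P1 B1 B2 eps b0) u m := by
  have h := sol_eq (P := P) (g := g) (u := u)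
    (R := fun a i => kval g P.kit u (P.rg a i)) hO (a := 0) (fun i hi m' hm' => by
      have := kval_dval hO u (0 + 1 + i) m' hm'
      rwa [KP.ds_A hi] at this)
    (r := mulA (matA η P0 P1 B1 B2 eps) (rG B1 B2 u)) (fun i => by
      have := kval_dval hO u 0 _ (hO.lt i)
      rw [KP.ds_A0] at this
      rw [this]
      funext x
      simp only [KP.dval, mulA, rG]
      rw [if_neg (by decide), hO.cG, sum_mul]
      refine sum_congr rfl fun k _ => ?_
      split_ifs
      · rw [mul_one]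
      · rw [mul_zero, zero_mul])
    (fix_G hA hG u) m
  rw [KP.NS_eq, Nat.add_sub_cancel_left]
  rwa [Nat.zero_add] at h

theorem val_tau (hO : P.OK g ψ en bet η P0 P1 B1 B2 eps)
    (hA : matA η P0 P1 B1 B2 eps * matH η P0 P1 B1 B2 eps = 1)
    (hG : (cdOf bet η P0 P1 B1 B2 eps b0).Good) (u : J → F) (m : Γ × B) (x : J) :
    kval g P.kit u (P.rg (P.NS + P.Lw - 1) (en.symm m).val) x =
      yG (cdOf bet η P0 P1 B1 B2 eps b0) u (srcB η m) (x + zB bet η m) := by
  have h := chain_val (P := P) (g := g) (u := u) (R := fun a i => kval g P.kit u (P.rg a i))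
    (a := P.NS) (t := 0) (n := P.NS - 1) (s := true) (fun j hj m' hm' => by
      have := kval_dval hO u (P.NS + j) m' hm'
      rwa [KP.ds_B hj] at this) hO.Lw_pos (hO.lt m) (hO.wz_len m) x
  rw [h, if_pos rfl, hO.sr, val_Y hO hA hG]
  have h5 : P.wt 0 (en.symm m).val = P.wz (en.symm m).val := rfl
  rw [h5, hO.wz]

theorem val_D (hO : P.OK g ψ en bet η P0 P1 B1 B2 eps)
    (hA : matA η P0 P1 B1 B2 eps * matH η P0 P1 B1 B2 eps = 1)
    (hG : (cdOf bet η P0 P1 B1 B2 eps b0).Good) {p : ℕ} (hp : p < g.nP) (u : J → F)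
    (m : Γ × B) :
    kval g P.kit u (P.rg (P.cp p + P.NS - 1) (en.symm m).val) =
      yD (cdOf bet η P0 P1 B1 B2 eps b0) (g.phi p) u m := by
  have hp' : p < P.nP := by rw [hO.nP_eq]; exact hp
  have h := sol_eq (P := P) (g := g) (u := u)
    (R := fun a i => kval g P.kit u (P.rg a i)) hO (a := P.cp p) (fun i hi m' hm' => by
      have := kval_dval hO u (P.cp p + 1 + i) m' hm'
      rwa [KP.ds_Ci hp' hi] at this)
    (r := mulA (matA η P0 P1 B1 B2 eps) (rD bet η P1 B1 B2 eps (g.phi p)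
      (yG (cdOf bet η P0 P1 B1 B2 eps b0) u))) (fun i => by
      have := kval_dval hO u (P.cp p) _ (hO.lt i)
      rw [KP.ds_C0 hp'] at this
      rw [this]
      funext x
      simp only [KP.dval, mulA, rD]
      rw [hO.M_eq, sum_range_en en]
      simp only [hO.dp p hp, val_tau hO hA hG, sum_mul, mul_sum]
      rw [sum_comm]
      refine sum_congr rfl fun k _ => sum_congr rfl fun m _ => ?_
      ring)
    (fix_D hA hG (hO.phi_add p hp) u) m
  rw [KP.NS_eq, show P.cp p + (1 + P.κ * P.R1) - 1 = P.cp p + P.κ * P.R1 by omega]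
  exact h

omit [Fintype J] in
theorem val_T (hO : P.OK g ψ en bet η P0 P1 B1 B2 eps) {j : ℕ} (hj : j < g.nE) (u : J → F)
    (x : J) : kval g P.kit u (P.rg (P.sT + P.Lw) j) x = u (x + g.eb j) := by
  have hjM : j < P.M := lt_of_lt_of_le hj hO.nE_le
  have hL := hO.Lw_pos
  have h := chain_val (P := P) (g := g) (u := u) (R := fun a i => kval g P.kit u (P.rg a i))
    (a := P.sT + 1) (t := 1) (n := P.sT) (s := false) (fun j hj m' hm' => by
      have := kval_dval hO u (P.sT + 1 + j) m' hm'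
      rwa [KP.ds_D hj] at this) hL hjM (hO.we_len j hj) x
  rw [show P.sT + 1 + P.Lw - 1 = P.sT + P.Lw by omega] at h
  rw [h, if_neg (by decide), kval_dval hO u P.sT j hjM, KP.ds_D0]
  simp only [KP.dval]
  rw [if_pos trivial, one_mul]
  have h5 : P.wt 1 j = P.we j := rfl
  rw [h5, hO.we j hj]

theorem val_S (hO : P.OK g ψ en bet η P0 P1 B1 B2 eps) (hM : 0 < P.M) (u : J → F) (x : J) :
    kval g P.kit u (P.rg (P.sB - 1) 0) x = ∑ y, u y := by
  have hL := hO.Lw_pos
  have hR1 : P.R1 = P.Lw + 1 := rfl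
  have h := sum_basis ψ u (fun k => kval g P.kit u (P.rg (P.sS + k * P.R1) 0)) ?_ ?_ x
  · have h1 : P.sB - 1 = P.sS + κ * P.R1 := by
      have : P.sB = P.sS + P.NS := rfl
      rw [this, KP.NS_eq, hO.κ_eq]
      omega
    rw [h1]
    exact h
  · rw [Nat.zero_mul, add_zero, kval_dval hO u P.sS 0 hM, KP.ds_E0]
    funext x
    simp only [KP.dval]
    rw [if_pos trivial, one_mul]
  · intro k hk x
    have hκ := hO.κ_eq
    have h1 : (k + 1) * P.R1 ≤ P.κ * P.R1 := Nat.mul_le_mul_right _ (by omega)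
    have h2 : (k + 1) * P.R1 = k * P.R1 + P.R1 := Nat.succ_mul _ _
    have hkE : k < g.nE := lt_of_lt_of_le hk hO.κ_le
    have hch := chain_val (P := P) (g := g) (u := u)
      (R := fun a i => kval g P.kit u (P.rg a i)) (a := P.sS + 1 + k * P.R1) (t := 3 + k)
      (n := P.sS + k * P.R1) (s := false) (fun j hj m' hm' => by
        have := kval_dval hO u (P.sS + 1 + (k * P.R1 + j)) m' hm'
        rw [KP.ds_E (by omega), sumD_round j hj] at this
        rw [show P.sS + 1 + k * P.R1 + j = P.sS + 1 + (k * P.R1 + j) by omega]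
        exact this) hL hM (m := 0) (by
          have : P.wt (3 + k) 0 = P.we k := by
            unfold KP.wt
            rw [if_neg (by omega), if_neg (by omega), if_neg (by omega), Nat.add_sub_cancel_left]
          rw [this]
          exact hO.we_len k hkE) x
    have h3 : P.wt (3 + k) 0 = P.we k := by
      unfold KP.wt
      rw [if_neg (by omega), if_neg (by omega), if_neg (by omega), Nat.add_sub_cancel_left]
    rw [h3, hO.we k hkE, hO.eb k hk, if_neg (by decide),
      show P.sS + 1 + k * P.R1 + P.Lw - 1 = P.sS + (k + 1) * P.R1 - 1 by omega] at hch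
    have h6 := kval_dval hO u (P.sS + 1 + (k * P.R1 + P.Lw)) 0 hM
    rw [KP.ds_E (by omega), sumD_end] at h6
    rw [show P.sS + (k + 1) * P.R1 = P.sS + 1 + (k * P.R1 + P.Lw) by omega, h6]
    simp only [KP.dval]
    rw [hch]

theorem val_B (hO : P.OK g ψ en bet η P0 P1 B1 B2 eps)
    (hA : matA η P0 P1 B1 B2 eps * matH η P0 P1 B1 B2 eps = 1)
    (hG : (cdOf bet η P0 P1 B1 B2 eps b0).Good) (u : J → F) (m : Γ × B) (x : J) :
    kval g P.kit u (P.rg (P.NL - 1) (en.symm m).val) x =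
      yG (cdOf bet η P0 P1 B1 B2 eps b0) u m (m.1 • x) := by
  have h := chain_val (P := P) (g := g) (u := u) (R := fun a i => kval g P.kit u (P.rg a i))
    (a := P.sB) (t := 2) (n := P.NS - 1) (s := false) (fun j hj m' hm' => by
      have := kval_dval hO u (P.sB + j) m' hm'
      rwa [KP.ds_F] at this) hO.Lw_pos (hO.lt m) (hO.wv_len m) x
  have h1 : P.NL = P.sB + P.Lw := rfl
  rw [h1, h, if_neg (by decide), val_Y hO hA hG]
  have h5 : P.wt 2 (en.symm m).val = P.wv (en.symm m).val := rfl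
  rw [h5, hO.wv]

omit [Group Γ] [DistribMulAction Γ J] [Fintype Γ] [Fintype B] [Fintype J] [DecidableEq Γ]
  [DecidableEq B] [Algebra (ZMod 2) F] [AddCommGroup J] in
theorem insD_t2 {m p i : ℕ} {tab : Γ → B → ℕ} {d : Dsc} (h : P.insD m d = .t2 p i tab) :
    ∃ n', d = .t2 p n' ∧ i = 0 ∧ tab = fun v b => P.rg n' (P.ix v b) := by
  cases d with
  | u0 c => simp only [KP.insD, reduceCtorEq] at h
  | ch t j n s =>
    simp only [KP.insD, KP.insL] at h
    split_ifs at h
  | comb a b c => simp only [KP.insD, reduceCtorEq] at h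
  | rhsD a b => simp only [KP.insD, reduceCtorEq] at h
  | add a b => simp only [KP.insD, reduceCtorEq] at h
  | t2 p' n' =>
    simp only [KP.insD] at h
    injection h with h1 h2 h3
    exact ⟨n', by rw [h1], h2.symm, h3.symm⟩

/-- **The kit is correct.** -/
theorem kitOK {n : ℕ} (R : RS J Γ B F iJ iG n) (hP : R.P = P.kit)
    (hS : R.S = cdOf bet η P0 P1 B1 B2 eps b0) (hG : R.S.Good) (hq : 0 < R.q)
    (hA : matA η P0 P1 B1 B2 eps * matH η P0 P1 B1 B2 eps = 1)
    (hO : P.OK R.g ψ R.en bet η P0 P1 B1 B2 eps) : R.KitOK := by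
  have hM : 0 < P.M := by rw [hO.M_eq]; exact hq
  rw [hS] at hG
  have hL := hO.Lw_pos
  have hNS := KP.NS_eq P
  have hsT : P.sT = P.NS + P.Lw + P.nP * (P.NS + 1) := rfl
  have hsS : P.sS = P.sT + 1 + P.Lw := rfl
  have hsB : P.sB = P.sS + P.NS := rfl
  have hNL : P.NL = P.sB + P.Lw := rfl
  have hKL : R.P.KL = 1 + P.NL * P.M := by rw [hP]; rfl
  have hlt : ∀ a m, a < P.NL → m < P.M → P.rg a m < R.P.KL := by
    intro a m ha hm
    rw [hKL]
    unfold KP.rg
    have h1 : (a + 1) * P.M ≤ P.NL * P.M := Nat.mul_le_mul_right _ ha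
    rw [Nat.succ_mul] at h1
    omega
  refine ⟨?_, ?_, ?_, ?_, ?_, ?_, ?_, ?_, ?_, ?_⟩
  · rw [hKL]; omega
  · intro j hj
    have h1 : R.P.iT j = P.rg (P.sT + P.Lw) j := by rw [hP]; rfl
    rw [h1]
    exact hlt _ _ (by omega) (lt_of_lt_of_le hj hO.nE_le)
  · intro p hp
    have hp' : p < P.nP := by rw [hO.nP_eq]; exact hp
    have h1 : R.P.iM p = P.rg (P.cp p + P.NS) 0 := by rw [hP]; rfl
    rw [h1]
    have := KP.cp_lt hp'
    exact hlt _ _ (by omega) hM
  · have h1 : R.P.iS = P.rg (P.sB - 1) 0 := by rw [hP]; rfl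
    rw [h1]
    exact hlt _ _ (by omega) hM
  · intro v b
    have h1 : R.P.iB v b = P.rg (P.NL - 1) (P.ix v b) := by rw [hP]; rfl
    rw [h1, hO.ix]
    exact hlt _ _ (by omega) (hO.lt _)
  · intro u j hj
    have h1 : R.P.iT j = P.rg (P.sT + P.Lw) j := by rw [hP]; rfl
    rw [h1, hP]
    funext x
    exact val_T hO hj u x
  · intro u p hp
    have hp' : p < P.nP := by rw [hO.nP_eq]; exact hp
    have h1 : R.P.iM p = P.rg (P.cp p + P.NS) 0 := by rw [hP]; rfl
    rw [h1, hP, kval_dval hO u _ 0 hM, KP.ds_Ct hp']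
    rfl
  · intro u
    have h1 : R.P.iS = P.rg (P.sB - 1) 0 := by rw [hP]; rfl
    rw [h1, hP]
    funext x
    exact val_S hO hM u x
  · intro u v b
    have h1 : R.P.iB v b = P.rg (P.NL - 1) (P.ix v b) := by rw [hP]; rfl
    rw [h1, hP, hO.ix]
    funext x
    rw [val_B hO hA hG u (v, b) x, hS]
    rfl
  · intro r p i tab hr hins
    have h1 : P.insD (r % P.M) (P.ds (r / P.M)) = .t2 p i tab := by
      rw [← hins, hP]; rfl
    obtain ⟨n', hd, hi, htab⟩ := insD_t2 h1
    obtain ⟨hp', hn, hn'⟩ := KP.ds_t2 hd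
    have hp : p < R.g.nP := by rw [← hO.nP_eq]; exact hp'
    have h2 := Nat.div_add_mod r P.M
    subst hi htab
    refine ⟨Nat.succ_pos _, fun v b => ?_, hO.phi_add p hp, fun u v b => ?_⟩
    · change P.rg n' (P.ix v b) < r + 1
      rw [hO.ix]
      have h3 := hO.lt (v, b)
      unfold KP.rg
      have h4 : r / P.M = n' + 1 := by omega
      rw [h4, Nat.mul_add, Nat.mul_one, Nat.mul_comm] at h2
      omega
    · change kval R.g R.P u (P.rg n' (P.ix v b)) = _
      rw [hP, hO.ix, hn', val_D hO hA hG hp, kval_zero, hS]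
      rfl

end final

end Vale.Agent.P330.W.H624
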