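import Vale.Agent.P330.W.H624.KitDefs

/-!
# The kit: values of the layers
-/

namespace Vale.Agent.P330.W.H624

open Finset Vale.Agent.P330.H155

section words

variable {J Γ iJ iG : Type*} [AddCommGroup J] [Group Γ] [DistribMulAction Γ J]
  {sJ : iJ → J} {gG : iG → Γ} {dJ : ℕ → iJ} {dG : ℕ → iG}

theorem ptW_append (w : List (ℕ × ℕ)) (t : ℕ × ℕ) (x : J) :
    ptW sJ gG dJ dG (w ++ [t]) x = ptW sJ gG dJ dG w (ptL sJ gG dJ dG t x) := by
  simp [ptW]

theorem ptW_rep (k : ℕ) (x : J) : ptW sJ gG dJ dG (List.replicate k (0, 0)) x = x := by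
  induction k with
  | zero => rfl
  | succ k ih =>
    rw [List.replicate_succ]
    change ptL sJ gG dJ dG (0, 0) (ptW sJ gG dJ dG (List.replicate k (0, 0)) x) = x
    rw [ih]
    simp [ptL]

theorem map_getD {α : Type*} (d : α) (l : List α) (k : ℕ) (h : l.length ≤ k) :
    (List.range k).map (fun j => l.getD j d) = l ++ List.replicate (k - l.length) d := by
  apply List.ext_getElem
  · simp; omega
  · intro i h1 h2
    simp only [List.getElem_map, List.getElem_range]
    rw [List.getElem_append]
    split_ifs with h3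
    · exact List.getD_eq_getElem _ _ h3
    · rw [List.getD_eq_default _ _ (by omega)]
      simp

theorem ptW_pad (l : List (ℕ × ℕ)) (k : ℕ) (h : l.length ≤ k) (x : J) :
    ptW sJ gG dJ dG ((List.range k).map fun j => l.getD j (0, 0)) x = ptW sJ gG dJ dG l x := by
  rw [map_getD _ _ _ h]
  have := ptW_rep (sJ := sJ) (gG := gG) (dJ := dJ) (dG := dG) (k - l.length) x
  unfold ptW at this ⊢
  rw [List.foldr_append, this]

end words

theorem sum_map_range {V : Type*} [AddCommMonoid V] (f : ℕ → V) (n : ℕ) :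
    ((List.range n).map f).sum = ∑ i ∈ range n, f i := by
  induction n with
  | zero => rfl
  | succ n ih =>
    rw [List.range_succ, List.map_append, List.sum_append, ih, sum_range_succ]
    simp

/-- All layers used are older than `n`. -/
def Dsc.Lt (n : ℕ) : Dsc → Prop
  | .u0 _ => True
  | .ch _ _ a _ => a < n
  | .comb a b c => a < n ∧ b < n ∧ c < n
  | .rhsD _ a => a < n
  | .add a b => a < n ∧ b < n
  | .t2 _ _ => True

namespace KP

section order

variable {F iJ iG Γ B : Type*} {P : KP F iJ iG Γ B}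

theorem chD_lt {a t n j : ℕ} {s : Bool} (h : n < a) : (chD a t n s j).Lt (a + j) := by
  unfold chD
  split_ifs with h0
  · change n < a + j; omega
  · change a + j - 1 < a + j; omega

theorem solD_lt (a i : ℕ) : (P.solD a i).Lt (a + 1 + i) := by
  unfold solD
  have h1 := Nat.div_add_mod i P.R1
  have h2 : i % P.R1 < P.R1 := Nat.mod_lt _ (Nat.succ_pos _)
  have h3 : P.R1 = P.Lw + 1 := rfl
  set Q := i / P.R1
  set r := i % P.R1
  have h4 : P.R1 * Q = Q * P.R1 := Nat.mul_comm _ _
  have h5 : (Q + 1) * P.R1 = Q * P.R1 + P.R1 := Nat.succ_mul _ _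
  split_ifs with h
  · have := chD_lt (a := a + 1 + Q * P.R1) (t := 0) (n := a + Q * P.R1) (s := true) (j := r)
      (by omega)
    rwa [show a + 1 + Q * P.R1 + r = a + 1 + i by omega] at this
  · refine ⟨by omega, ?_, by omega⟩
    omega

theorem sumD_lt (a i : ℕ) : (P.sumD a i).Lt (a + 1 + i) := by
  unfold sumD
  have h1 := Nat.div_add_mod i P.R1
  have h2 : i % P.R1 < P.R1 := Nat.mod_lt _ (Nat.succ_pos _)
  have h3 : P.R1 = P.Lw + 1 := rfl
  set Q := i / P.R1
  set r := i % P.R1
  have h4 : P.R1 * Q = Q * P.R1 := Nat.mul_comm _ _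
  have h5 : (Q + 1) * P.R1 = Q * P.R1 + P.R1 := Nat.succ_mul _ _
  split_ifs with h
  · have := chD_lt (a := a + 1 + Q * P.R1) (t := 3 + Q) (n := a + Q * P.R1) (s := false) (j := r)
      (by omega)
    rwa [show a + 1 + Q * P.R1 + r = a + 1 + i by omega] at this
  · refine ⟨by omega, ?_⟩
    omega

theorem ds_lt (hL : 0 < P.Lw) (n : ℕ) : (P.ds n).Lt n := by
  have hNS : P.NS = 1 + P.κ * P.R1 := rfl
  have hsT : P.sT = P.NS + P.Lw + P.nP * (P.NS + 1) := rfl
  have hsS : P.sS = P.sT + 1 + P.Lw := rfl
  have hsB : P.sB = P.sS + P.NS := rfl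
  unfold ds
  split_ifs with h1 h2 h3 h4 h5 h6 h7
  · trivial
  · have := solD_lt (P := P) 0 (n - 1)
    rwa [show 0 + 1 + (n - 1) = n by omega] at this
  · have := chD_lt (a := P.NS) (t := 0) (n := P.NS - 1) (s := true) (j := n - P.NS) (by omega)
    rwa [show P.NS + (n - P.NS) = n by omega] at this
  · have h5 := Nat.div_add_mod (n - (P.NS + P.Lw)) (P.NS + 1)
    have h6 : (n - (P.NS + P.Lw)) % (P.NS + 1) < P.NS + 1 := Nat.mod_lt _ (Nat.succ_pos _)
    set Q := (n - (P.NS + P.Lw)) / (P.NS + 1)
    set r := (n - (P.NS + P.Lw)) % (P.NS + 1)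
    have h7 : (P.NS + 1) * Q = Q * (P.NS + 1) := Nat.mul_comm _ _
    simp only
    split_ifs with h8 h9
    · change P.NS + P.Lw - 1 < n; omega
    · trivial
    · have := solD_lt (P := P) (P.NS + P.Lw + Q * (P.NS + 1)) (r - 1)
      rwa [show P.NS + P.Lw + Q * (P.NS + 1) + 1 + (r - 1) = n by omega] at this
  · trivial
  · have := chD_lt (a := P.sT + 1) (t := 1) (n := P.sT) (s := false) (j := n - P.sT - 1) (by omega)
    rwa [show P.sT + 1 + (n - P.sT - 1) = n by omega] at this
  · trivial
  · have := sumD_lt (P := P) P.sS (n - P.sS - 1)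
    rwa [show P.sS + 1 + (n - P.sS - 1) = n by omega] at this
  · have := chD_lt (a := P.sB) (t := 2) (n := P.NS - 1) (s := false) (j := n - P.sB) (by omega)
    rwa [show P.sB + (n - P.sB) = n by omega] at this

end order

section

variable {J Γ B iJ iG : Type*} {F : Type} [AddCommGroup J] [Group Γ] [DistribMulAction Γ J]
  [Field F] (P : KP F iJ iG Γ B) (g : Gen J Γ F iJ iG)

/-- The value of the `m`-th register of a layer; `R n i` are the registers of the layers. -/
def dval (u : J → F) (R : ℕ → ℕ → J → F) (m : ℕ) : Dsc → J → F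
  | .u0 c => fun x => (if c then 1 else P.cG m) * u x
  | .ch t j n s => fun x => R n (if s then P.sr m else m)
      (ptL g.sJ g.gG P.dJ P.dG ((P.wt t m).getD j (0, 0)) x)
  | .comb nr nc ny => fun x =>
      R nr m x + ∑ i ∈ range P.M, P.be m i * (R nc i x + R ny (P.sr i) x)
  | .rhsD p n => fun x => ∑ i ∈ range P.M, P.dp p m i * R n i x
  | .add n n' => fun x => R n m x + R n' m x
  | .t2 p _ => fun x => g.phi p x * u x

theorem keval_insD {u : J → F} {R : ℕ → ℕ → J → F} {us : ℕ → J → F} {n m : ℕ} (h0 : us 0 = u)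
    (hus : ∀ a < n, ∀ i < P.M, us (P.rg a i) = R a i) (hsr : ∀ i < P.M, P.sr i < P.M)
    (hm : m < P.M) (d : Dsc) (hd : d.Lt n) :
    keval g us (P.insD m d) = P.dval g u R m d := by
  funext x
  cases d with
  | u0 c =>
    simp only [insD, keval, lcomb, dval, List.map_cons, List.map_nil, List.sum_cons,
      List.sum_nil, add_zero, h0, Pi.smul_apply, smul_eq_mul]
  | ch t j a s =>
    have hi : (if s then P.sr m else m) < P.M := by
      cases s
      · exact hm
      · exact hsr m hm
    have h := hus a hd _ hi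
    simp only [insD, dval, insL]
    set w := (P.wt t m).getD j (0, 0)
    unfold ptL
    by_cases h1 : w.1 = 1
    · rw [if_pos h1, if_pos h1]
      simp only [keval, h]
    · rw [if_neg h1, if_neg h1]
      by_cases h2 : w.1 = 2
      · rw [if_pos h2, if_pos h2]
        simp only [keval, h]
      · rw [if_neg h2, if_neg h2]
        simp only [keval, lcomb, List.map_cons, List.map_nil, List.sum_cons, List.sum_nil,
          add_zero, one_smul, h]
  | comb nr nc ny =>
    obtain ⟨h1, h2, h3⟩ := hd
    simp only [insD, keval, lcomb, dval, List.map_cons, List.map_append, List.map_map,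
      List.sum_cons, List.sum_append, Function.comp_def, sum_map_range]
    simp only [Pi.add_apply, Finset.sum_apply, Pi.smul_apply, smul_eq_mul, one_mul]
    rw [hus nr h1 m hm, ← sum_add_distrib]
    congr 1
    refine sum_congr rfl fun i hi => ?_
    rw [mem_range] at hi
    rw [hus nc h2 i hi, hus ny h3 _ (hsr i hi), mul_add]
  | rhsD p a =>
    simp only [insD, keval, lcomb, dval, List.map_map, Function.comp_def, sum_map_range]
    simp only [Finset.sum_apply, Pi.smul_apply, smul_eq_mul]
    refine sum_congr rfl fun i hi => ?_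
    rw [mem_range] at hi
    rw [hus a hd i hi]
  | add a b =>
    simp only [insD, keval, lcomb, dval, List.map_cons, List.map_nil, List.sum_cons,
      List.sum_nil, add_zero, one_smul, Pi.add_apply]
    rw [hus a hd.1 m hm, hus b hd.2 m hm]
  | t2 p a => simp only [insD, keval, dval, h0]

variable {P g}

/-- The registers of the layers. -/
theorem kval_layer (u : J → F) (hL : 0 < P.Lw) (hsr : ∀ i < P.M, P.sr i < P.M) (n m : ℕ)
    (hm : m < P.M) :
    kval g P.kit u (P.rg n m) =
      P.dval g u (fun a i => kval g P.kit u (P.rg a i)) m (P.ds n) := by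
  have h1 : P.rg n m = (n * P.M + m) + 1 := by unfold rg; omega
  rw [h1, kval_succ]
  have h2 : (n * P.M + m) / P.M = n := by
    rw [Nat.mul_comm, Nat.mul_add_div (by omega), Nat.div_eq_of_lt hm, add_zero]
  have h3 : (n * P.M + m) % P.M = m := by
    rw [Nat.mul_comm, Nat.mul_add_mod, Nat.mod_eq_of_lt hm]
  change keval g _ (P.insD ((n * P.M + m) % P.M) (P.ds ((n * P.M + m) / P.M))) = _
  rw [h2, h3]
  refine P.keval_insD g ?_ ?_ hsr hm _ (ds_lt hL n)
  · rw [trunc_of_lt (by omega), kval_zero]
  · intro a ha i hi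
    rw [trunc_of_lt]
    unfold rg
    have : (a + 1) * P.M ≤ n * P.M := Nat.mul_le_mul_right _ ha
    rw [Nat.succ_mul] at this
    omega

end

end KP

end Vale.Agent.P330.W.H624
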