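import Vale.Agent.P330.W.H624.KitPT
import Vale.Agent.P330.H675.KPI

/-!
# The kit of the concrete instance in polynomial time
-/

namespace Vale.Agent.P330.W.H624

open Vale.Agent.Lib.PolyTime Vale.Agent.P330.H933 Vale.Agent.P330.H604 Vale.Agent.P330.H675

variable {A : Set Word} {α : Type} [Enc α] {l L : α → ℕ} {d : α → Fin 8 → ℕ} {j t : ℕ}
  (P0 P1 : Submodule (ZMod 2) (Fin (2 ^ (j * t)) → ZMod 2))
  (B1 B2 : Finset (Fin (2 ^ (j * t)))) {eps : ∀ a, Fl (L a)}

/-- The tables of the instance are computable in polynomial time. -/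
theorem kptI (h : JPar A l d) (hL : LPar A L) (he : FT A L eps) :
    KPT A (fun a => gE (l a)) (fun a => kpI (l a) (L a) (d a) j t P0 P1 B1 B2 (eps a)) := by
  have hf1 : JPar A (fun q : α × ℕ => l q.1) (fun q => d q.1) := h.comp PT.fst'
  have hJ : ∀ r : ℕ, PT A (fun q : α × ℕ => q.2 % r) := fun r => PT.mod PT.snd' (PT.const r)
  refine
    { ngp := PT_cG h.toGPar
      ngb := PBd_cG h.toGPar
      M := PT.mul (PT_cG h.toGPar) (PT.const _)
      Mb := (PBd_cG h.toGPar).mul (PBd.const _)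
      κ := h.PT_kap
      κb := h.kbd
      Lw := PT_lenW h.toGPar t
      Lwb := PBd_lenW h.toGPar t
      nP := h.PT_kap
      nPb := h.kbd
      ix := fun a g b => ?_
      dJ := hJ 8
      dG := hJ 12
      cG := h.FT_cG P0 P1 B1 B2 hL he (PT.fst' (A := A)) (PT.snd' (A := A))
      be := h.FT_be P0 P1 B1 B2 hL he (PT.fst' (A := A)) (PT.snd'.fst) (PT.snd'.snd)
      dp := h.FT_dp P0 P1 B1 B2 hL he (PT.fst' (A := A)) (PT.snd'.fst) (PT.snd'.snd.fst)
        (PT.snd'.snd.snd)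
      sr := hf1.PT_srT j t PT.snd'
      wz := hf1.PT_wzT j t PT.snd'
      we := hf1.PT_weT PT.snd'
      wv := PT_wvT hf1.toGPar j t PT.snd' }
  change (b : ℕ) + 2 ^ (j * t) * gn (l a) (ge (l a) g) = g * 2 ^ (j * t) + b
  rw [gn_ge g.2]
  ring

end Vale.Agent.P330.W.H624
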