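import Vale.Agent.P330.W.H624.Package

/-!
# More on the mixing property: compositions, unions, edge expansion, majorities
-/

namespace Vale.Agent.P330.TAN

open Finset

variable {V B B' : Type*} [Fintype V] [Fintype B] [Fintype B']

/-- Two steps: first `e1`, then `e2`. -/
theorem SpecGap.comp {e1 : B → V ≃ V} {e2 : B' → V ≃ V} {l1 l2 : ℝ} (h1 : SpecGap e1 l1)
    (h2 : SpecGap e2 l2) :
    SpecGap (fun p : B × B' => (e1 p.1).trans (e2 p.2)) (l1 * l2) := by
  intro f hf
  set g : V → ℝ := fun v => ∑ b', f (e2 b' v) with hg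
  have hg0 : ∑ v, g v = 0 := by
    simp only [hg]
    rw [sum_comm]
    have : ∀ b, ∑ v, f (e2 b v) = 0 := fun b => by
      rw [Equiv.sum_comp (e2 b) f, hf]
    simp [this]
  have h3 := h1 g hg0
  have h4 := h2 f hf
  have h5 : ∀ v, ∑ p : B × B', f (((e1 p.1).trans (e2 p.2)) v) = ∑ b, g (e1 b v) := by
    intro v
    rw [Fintype.sum_prod_type]
    rfl
  simp only [h5]
  calc ∑ v, (∑ b, g (e1 b v)) ^ 2 ≤ (l1 * Fintype.card B) ^ 2 * ∑ v, g v ^ 2 := h3
    _ ≤ (l1 * Fintype.card B) ^ 2 * ((l2 * Fintype.card B') ^ 2 * ∑ v, f v ^ 2) := by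
        gcongr
    _ = _ := by
        rw [Fintype.card_prod]
        push_cast
        ring

/-- A reindexing of the letters. -/
theorem SpecGap.reindex {e : B → V ≃ V} {lam : ℝ} (h : SpecGap e lam) (s : B' ≃ B) :
    SpecGap (fun b => e (s b)) lam := by
  intro f hf
  have h1 := h f hf
  rw [Fintype.card_congr s]
  have h2 : ∀ v, ∑ b, f (e (s b) v) = ∑ b, f (e b v) := fun v =>
    Equiv.sum_comp s fun b => f (e b v)
  simpa only [h2] using h1

/-- The union of two families of letters; `l` is at least the average of `l1` and `l2`. -/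
theorem SpecGap.sum {e1 : B → V ≃ V} {e2 : B' → V ≃ V} {l1 l2 l : ℝ} (h1 : SpecGap e1 l1)
    (h2 : SpecGap e2 l2) (hl1 : 0 ≤ l1) (hl2 : 0 ≤ l2)
    (hl : l1 * Fintype.card B + l2 * Fintype.card B' ≤
      l * (Fintype.card B + Fintype.card B' : ℝ)) :
    SpecGap (Sum.elim e1 e2) l := by
  intro f hf
  have h3 := h1 f hf
  have h4 := h2 f hf
  have h5 : ∀ v, ∑ p : B ⊕ B', f (Sum.elim e1 e2 p v) =
      ∑ b, f (e1 b v) + ∑ b, f (e2 b v) := by
    intro v
    rw [Fintype.sum_sum_type]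
    rfl
  simp only [h5]
  set x : V → ℝ := fun v => ∑ b, f (e1 b v)
  set y : V → ℝ := fun v => ∑ b, f (e2 b v)
  set N := ∑ v, f v ^ 2 with hN
  have hN0 : 0 ≤ N := sum_nonneg fun v _ => sq_nonneg _
  have hX0 : 0 ≤ ∑ v, x v ^ 2 := sum_nonneg fun v _ => sq_nonneg _
  have hY0 : 0 ≤ ∑ v, y v ^ 2 := sum_nonneg fun v _ => sq_nonneg _
  have hxy : (∑ v, x v * y v) ^ 2 ≤ (∑ v, x v ^ 2) * ∑ v, y v ^ 2 :=
    sum_mul_sq_le_sq_mul_sq _ _ _
  set p : ℝ := l1 * Fintype.card B with hp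
  set q : ℝ := l2 * Fintype.card B' with hq
  have hp0 : 0 ≤ p := by positivity
  have hq0 : 0 ≤ q := by positivity
  have h6 : ∑ v, x v * y v ≤ p * q * N := by
    refine le_of_sq_le_sq ?_ (by positivity)
    calc (∑ v, x v * y v) ^ 2 ≤ (∑ v, x v ^ 2) * ∑ v, y v ^ 2 := hxy
      _ ≤ (p ^ 2 * N) * (q ^ 2 * N) := by gcongr
      _ = _ := by ring
  have h7 : ∑ v, (x v + y v) ^ 2 = ∑ v, x v ^ 2 + 2 * ∑ v, x v * y v + ∑ v, y v ^ 2 := by
    rw [mul_sum, ← sum_add_distrib, ← sum_add_distrib]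
    refine sum_congr rfl fun v _ => ?_
    ring
  have h8 : ∑ v, (x v + y v) ^ 2 ≤ (p + q) ^ 2 * N := by
    rw [h7]
    have e1 : ∑ v, x v ^ 2 ≤ p ^ 2 * N := h3
    have e2 : ∑ v, y v ^ 2 ≤ q ^ 2 * N := h4
    nlinarith
  have h9 : (p + q) ^ 2 ≤ (l * Fintype.card (B ⊕ B')) ^ 2 := by
    rw [Fintype.card_sum]
    push_cast
    exact pow_le_pow_left₀ (by positivity) hl 2
  calc ∑ v, (x v + y v) ^ 2 ≤ (p + q) ^ 2 * N := h8
    _ ≤ _ := by gcongr

section mix

variable {W : Type*} [Nonempty B] {nb : B → W → W} {n lam : ℝ}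

open Classical in
/-- **Edge expansion.** -/
theorem Mix.expand (h : Mix nb n lam) (hn : 0 < n) (A : Finset W)
    (hA : 2 * (A.card : ℝ) ≤ n) :
    (1 / 2 - lam) * (A.card : ℝ) ≤ (A.filter fun w => ∃ b, nb b w ∉ A).card := by
  have hB : (0 : ℝ) < Fintype.card B := cardB_pos
  have h1 := h A A
  have hA0 : (0 : ℝ) ≤ A.card := by positivity
  rw [Real.sqrt_mul_self hA0] at h1
  set I := A.filter fun w => ¬ ∃ b, nb b w ∉ A with hI
  have h2 : (Fintype.card B : ℝ) * I.card ≤ ec nb A A := by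
    have h3 : ec nb I A ≤ ec nb A A := ec_mono nb (filter_subset _ _) subset_rfl
    have h4 : ec nb I A = I.card * Fintype.card B := by
      unfold ec
      rw [sum_const_nat]
      intro w hw
      rw [hI, mem_filter] at hw
      push Not at hw
      refine le_antisymm (dg_le _ _ _) ?_
      have : (univ : Finset B).card ≤ dg nb A w := le_dg fun b _ => hw.2 b
      simpa using this
    have h5 : ((I.card * Fintype.card B : ℕ) : ℝ) ≤ ec nb A A := by
      rw [← h4]; exact_mod_cast h3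
    push_cast at h5
    linarith
  have h3 : (I.card : ℝ) ≤ (1 / 2 + lam) * A.card := by
    have h4 : (A.card : ℝ) * A.card / n ≤ 1 / 2 * A.card := by
      rw [div_le_iff₀ hn]
      nlinarith
    have h5 : (Fintype.card B : ℝ) * I.card ≤ Fintype.card B * ((1 / 2 + lam) * A.card) := by
      calc _ ≤ _ := h2
        _ ≤ _ := h1
        _ ≤ _ := by
          gcongr
          linarith
    exact le_of_mul_le_mul_left h5 hB
  have h4 : (A.card : ℝ) = (A.filter fun w => ∃ b, nb b w ∉ A).card + I.card := by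
    rw [hI]
    exact_mod_cast (card_filter_add_card_filter_not (s := A) fun w => ∃ b, nb b w ∉ A).symm
  linarith

/-- **Edge expansion**, without a filter. -/
theorem Mix.expand' (h : Mix nb n lam) (hn : 0 < n) (A : Finset W) (hA : 2 * (A.card : ℝ) ≤ n) :
    ∃ A' : Finset W, (∀ w ∈ A', w ∈ A ∧ ∃ b, nb b w ∉ A) ∧
      (1 / 2 - lam) * (A.card : ℝ) ≤ A'.card := by
  classical
  exact ⟨_, fun _ hw => mem_filter.1 hw, h.expand hn A hA⟩

/-- **Majorities.** The vertices with at least a fraction `δ` of their neighbours in `A`. -/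
theorem Mix.many [Fintype W] (h : Mix nb n lam) (hn : 0 < n) {δ : ℝ} (hδ : 0 < δ)
    (A : Finset W) (hA : (A.card : ℝ) ≤ δ / 2 * n) :
    ∃ T : Finset W, (T.card : ℝ) ≤ (2 * lam / δ) ^ 2 * A.card ∧
      ∀ w, w ∉ T → (dg nb A w : ℝ) < δ * Fintype.card B := by
  classical
  refine ⟨univ.filter fun w => δ * Fintype.card B ≤ dg nb A w, ?_, ?_⟩
  · exact h.core hn hδ (fun w hw => (mem_filter.1 hw).2) hA
  · intro w hw
    rw [mem_filter] at hw
    push Not at hw
    exact hw (mem_univ _)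

end mix

end Vale.Agent.P330.TAN
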