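import Vale.Agent.P330.W.H840.Sys

/-!
# Exactness, contraction, expansion, distance for the words `E c`

The four facts about the concrete register system which follow from the spectral gap of the right
translations and the distance of the local codes.
-/

namespace Vale.Agent.P330.W.H624

open Finset Vale.Agent.P330.TAN Vale.Agent.P330.H155 Vale.Agent.P330.H797 Vale.Agent.P330.H840

variable {J Γ B F : Type} [AddCommGroup J] [Fintype J] [Group Γ] [Fintype Γ]
  [DistribMulAction Γ J] [Field F] [Fintype B] [Nonempty B]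

theorem fr_eq {Om : Type} [Fintype Om] (P : Om → Prop) (s : Finset Om) (h : ∀ x, x ∈ s ↔ P x) :
    fr P = (s.card : ℝ) / Fintype.card Om := by
  classical
  unfold fr
  congr 2
  refine congrArg card ?_
  ext x
  rw [h, mem_filter]
  simp

omit [Nonempty B] in
theorem fr_errL {Om A : Type} [Fintype Om] (z m : Om → B → A) :
    fr (fun h => z h ≠ m h) = ((errL z m).card : ℝ) / Fintype.card Om :=
  fr_eq _ _ fun _ => mem_errL

omit [Fintype J] [Fintype Γ] [Fintype B] [Nonempty B] in
theorem rv_eP (S : Cd J Γ B F) (z : J × Γ → B → F) (h : J × Γ) :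
    rv (eP S) z h = fun b => z (S.nb b h) b := rfl

omit [Fintype J] [Fintype Γ] [Fintype B] [Nonempty B] in
theorem isWord_of_isM {S : Cd J Γ B F} {X : J × Γ → B → F} (hX : S.IsM X) :
    IsWord (eP S) (fun _ => (S.C0 : Set (B → F))) (fun _ => (S.C1 : Set (B → F))) X :=
  fun h => ⟨hX.1 h, hX.2 h⟩

/-- **Distance.** -/
theorem distE {S : Cd J Γ B F} (hS : S.Good) {lam δ : ℝ} (hlam : 0 ≤ lam)
    (hs : SpecGap (eP S) lam) (hδ : 0 < δ) (hδl : 16 * lam ≤ δ)
    (h0 : Dist (S.C0 : Set (B → F)) δ) (h1 : Dist (S.C1 : Set (B → F)) δ) :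
    DistE S (δ / 2) := by
  intro c c' hne
  rw [fr_errL]
  have hn : (0 : ℝ) < Fintype.card (J × Γ) := cardV_pos
  rw [le_div_iff₀ hn]
  by_contra hlt
  push Not at hlt
  exact hne (Cd.E_inj hS (word_eq hlam hs hδ (by linarith) (fun _ => h0) (fun _ => h1)
    (isWord_of_isM (Cd.E_isM hS c)) (isWord_of_isM (Cd.E_isM hS c')) hlt.le))

/-- **Exactness.** -/
theorem exactE {S : Cd J Γ B F} (hS : S.Good) {lam δ : ℝ} (hlam : 0 ≤ lam)
    (hs : SpecGap (eP S) lam) (hδ : 0 < δ) (hδ1 : δ ≤ 1) (hδl : 16 * lam ≤ δ)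
    (h0 : Dist (S.C0 : Set (B → F)) δ) (h1 : Dist (S.C1 : Set (B → F)) δ) :
    ExactE S (100 / δ) (δ / 8) := by
  classical
  intro bad
  have hn : (0 : ℝ) < Fintype.card (J × Γ) := cardV_pos
  by_cases hb : 100 * (bad.card : ℝ) ≤ δ * Fintype.card (J × Γ)
  · obtain ⟨cl, h2, h3, h4⟩ := closure hlam hs hδ hδl bad hb
    refine ⟨cl, h2, h3.trans ?_, ?_⟩
    · have : (4 : ℝ) ≤ 100 / δ := by
        rw [le_div_iff₀ hδ]
        linarith
      gcongr
    · intro c u hu hnear h hh
      by_contra hne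
      refine hh (h4 F (fun _ => (S.C0 : Set (B → F))) (fun _ => (S.C1 : Set (B → F)))
        (fun _ => h0) (fun _ => h1) u (S.E c) (isWord_of_isM (Cd.E_isM hS c))
        (fun v hv => hu v hv) ?_ (mem_errL.2 hne))
      rw [fr_errL, div_le_iff₀ hn] at hnear
      linarith
  · push Not at hb
    refine ⟨univ, subset_univ _, ?_, fun _ _ _ _ h hh => absurd (mem_univ h) hh⟩
    rw [card_univ, div_mul_eq_mul_div, le_div_iff₀ hδ]
    linarith

/-- The two-step expander. -/
def e2 (S : Cd J Γ B F) (p : B × B) : J × Γ ≃ J × Γ := (eP S p.1).trans (eP S p.2).symm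

omit [Nonempty B] in
theorem specGap_e2 {S : Cd J Γ B F} {lam : ℝ} (hs : SpecGap (eP S) lam) :
    SpecGap (fun p : B × B => (eP S p.1).trans (eP S p.2).symm) (lam * lam) := by
  have h2 : SpecGap (fun b => (eP S b).symm) lam := SpecGap.symm hs
  have h3 := SpecGap.comp hs h2
  exact h3

omit [Nonempty B] in
theorem mix_e2 {S : Cd J Γ B F} {lam : ℝ} (hlam : 0 ≤ lam) (hs : SpecGap (eP S) lam) :
    Mix (fun (p : B × B) h => e2 S p h) (Fintype.card (J × Γ)) (lam * lam) :=
  SpecGap.mix (mul_nonneg hlam hlam) (specGap_e2 hs)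

/-- **Edge expansion.** -/
theorem expandE {S : Cd J Γ B F} {TG TJ : Type} {tg : TG → Γ} {tj : TJ → J} {K : ℕ}
    (W : Wires S tg tj K) {lam : ℝ} (hlam : 0 ≤ lam) (hlam2 : lam ≤ 1 / 2)
    (hs : SpecGap (eP S) lam) : ExpandE W.wr (1 / 4) := by
  classical
  intro A hA
  have hn : (0 : ℝ) < Fintype.card (J × Γ) := cardV_pos
  have hm := mix_e2 hlam hs
  have hA' : 2 * (A.card : ℝ) ≤ Fintype.card (J × Γ) := by exact_mod_cast hA
  have h3 : (1 / 4 : ℝ) ≤ 1 / 2 - lam * lam := by nlinarith
  have h4 : (1 / 4 : ℝ) * A.card ≤ (1 / 2 - lam * lam) * A.card :=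
    mul_le_mul_of_nonneg_right h3 (Nat.cast_nonneg _)
  obtain ⟨A', h1, h2⟩ := hm.expand' hn A hA'
  refine ⟨A', fun h hh => ⟨(h1 h hh).1, ?_⟩, h4.trans h2⟩
  obtain ⟨⟨b, b'⟩, hb⟩ := (h1 h hh).2
  refine ⟨W.hw b b', ?_⟩
  rw [W.hw_eq]
  exact hb

/-- **Contraction.** -/
theorem contractE {S : Cd J Γ B F} (hS : S.Good) {TG TJ : Type} {tg : TG → Γ} {tj : TJ → J}
    {K : ℕ} (A : Dat S tg tj K) {lam δ : ℝ} (hlam : 0 ≤ lam) (hs : SpecGap (eP S) lam)
    (hδ : 0 < δ) (hδ1 : δ ≤ 1 / 3) (hδl : 2 * lam ≤ δ)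
    (hDL : Decodes A.DL (S.C0 : Set (B → F)) δ) (hDR : Decodes A.DR (S.C1 : Set (B → F)) δ)
    (hK : 3 * K ≤ 4 * (A.W.nx * (Fintype.card B * Fintype.card B))) {c₀ : ℝ}
    (hc : (2 * lam / δ) ^ 4 + 36 * lam ^ 4 ≤ c₀) :
    ContractE S A (δ / 2) c₀ := by
  classical
  intro bad hbad
  have hn : (0 : ℝ) < Fintype.card (J × Γ) := cardV_pos
  have hb0 : (0 : ℝ) ≤ bad.card := by positivity
  -- the two sets
  obtain ⟨R, hR1, hR2⟩ := (hs.symm.mix hlam).many hn hδ bad hbad
  have h4 : (2 * lam / δ) ^ 2 ≤ 1 := by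
    have : 2 * lam / δ ≤ 1 := by rw [div_le_one hδ]; linarith
    have h0 : 0 ≤ 2 * lam / δ := by positivity
    nlinarith
  obtain ⟨T1, hT1, hT1'⟩ := (hs.mix hlam).many hn hδ R (by nlinarith)
  have hm := mix_e2 hlam hs
  obtain ⟨T2, hT2, hT2'⟩ := hm.many hn (δ := 1 / 3) (by norm_num) bad (by nlinarith)
  refine ⟨T1 ∪ T2, ?_, ?_⟩
  · have h5 : ((T1 ∪ T2).card : ℝ) ≤ T1.card + T2.card := by exact_mod_cast card_union_le _ _
    have h6 : (T1.card : ℝ) ≤ (2 * lam / δ) ^ 4 * bad.card := by
      calc (T1.card : ℝ) ≤ (2 * lam / δ) ^ 2 * R.card := hT1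
        _ ≤ (2 * lam / δ) ^ 2 * ((2 * lam / δ) ^ 2 * bad.card) := by gcongr
        _ = _ := by ring
    have h7 : (T2.card : ℝ) ≤ 36 * lam ^ 4 * bad.card := by
      calc (T2.card : ℝ) ≤ (2 * (lam * lam) / (1 / 3)) ^ 2 * bad.card := hT2
        _ = _ := by ring
    calc ((T1 ∪ T2).card : ℝ) ≤ T1.card + T2.card := h5
      _ ≤ (2 * lam / δ) ^ 4 * bad.card + 36 * lam ^ 4 * bad.card := add_le_add h6 h7
      _ = ((2 * lam / δ) ^ 4 + 36 * lam ^ 4) * bad.card := by ring
      _ ≤ c₀ * bad.card := by gcongr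
  · intro h hh
    rw [mem_union, not_or] at hh
    constructor
    · -- the majority of the wires is good
      set g : Finset (B × B) := univ.filter fun p => e2 S p h ∉ bad with hg
      refine ⟨(univ : Finset (Fin A.W.nx)).product g |>.map
        ((Function.Embedding.refl _).trans A.W.ex), ?_, ?_⟩
      · rw [card_map]
        change K < 2 * ((univ : Finset (Fin A.W.nx)) ×ˢ g).card
        rw [card_product, card_univ, Fintype.card_fin]
        have h5 := hT2' h hh.2
        have h6 : (Fintype.card (B × B) : ℝ) ≤ g.card + dg (fun (p : B × B) h => e2 S p h) bad h := by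
          have : Fintype.card (B × B) ≤ g.card + dg (fun (p : B × B) h => e2 S p h) bad h := by
            have h7 : (univ.filter fun p : B × B => ¬ (e2 S p h ∉ bad)).card ≤
                dg (fun (p : B × B) h => e2 S p h) bad h := by
              refine le_dg fun b hb => ?_
              rw [mem_filter] at hb
              exact not_not.1 hb.2
            rw [← card_univ, ← card_filter_add_card_filter_not (s := univ)
              (fun p : B × B => e2 S p h ∉ bad)]
            exact Nat.add_le_add_left h7 _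
          exact_mod_cast this
        have h7 : (2 / 3 : ℝ) * Fintype.card (B × B) < g.card := by linarith
        rw [Fintype.card_prod] at h7
        push_cast at h7
        have h8 : (3 : ℝ) * K ≤ 4 * (A.W.nx * (Fintype.card B * Fintype.card B)) := by
          exact_mod_cast hK
        have hKpos : 0 < K := Nat.lt_of_le_of_lt (Nat.zero_le _) A.W.own.2
        have hnx : 0 < A.W.nx := by
          rcases Nat.eq_zero_or_pos A.W.nx with h9 | h9
          · rw [h9, Nat.zero_mul, Nat.mul_zero] at hK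
            omega
          · exact h9
        have hnx' : (0 : ℝ) < A.W.nx := by exact_mod_cast hnx
        have h9 : (A.W.nx : ℝ) * ((2 / 3 : ℝ) * (Fintype.card B * Fintype.card B)) <
            A.W.nx * g.card := mul_lt_mul_of_pos_left h7 hnx'
        have h10 : (K : ℝ) < 2 * (A.W.nx * g.card) := by nlinarith
        exact_mod_cast h10
      · intro i hi
        rw [mem_map] at hi
        obtain ⟨⟨r, b, b'⟩, hp, rfl⟩ := hi
        change (r, b, b') ∈ (univ : Finset (Fin A.W.nx)) ×ˢ g at hp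
        rw [mem_product, hg, mem_filter] at hp
        change A.W.wr (A.W.ex (r, b, b')) h ∉ bad
        rw [A.W.ex_eq]
        exact hp.2.2
    · -- decoding
      intro c v hv
      have hm := Cd.E_isM hS c
      have hRok : ∀ b, eP S b h ∉ R →
          A.DR (fun b' => (v (A.W.hw b b')).map fun x => x b') =
            fun b' => S.E c (S.nb b' (eP S b h)) b' := by
        intro b hb
        refine hDR _ (hm.2 _) _ (lt_of_le_of_lt ?_ (hR2 _ hb))
        have : (univ.filter fun b' => (v (A.W.hw b b')).map (fun x => x b') ≠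
            some (S.E c (S.nb b' (eP S b h)) b')).card ≤
            dg (fun b v => (eP S b).symm v) bad (eP S b h) := by
          refine le_dg fun b' hb' => ?_
          rw [mem_filter] at hb'
          by_contra h6
          refine hb'.2 ?_
          rw [hv (A.W.hw b b') (by rw [A.W.hw_eq]; exact h6), A.W.hw_eq]
          rfl
        convert (Nat.cast_le (α := ℝ)).2 this
      change A.DL (fun b => some (A.DR (fun b' => (v (A.W.hw b b')).map fun x => x b') b)) = _
      refine hDL _ (hm.1 h) _ (lt_of_le_of_lt ?_ (hT1' h hh.1))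
      have : (univ.filter fun b => (some (A.DR (fun b' =>
          (v (A.W.hw b b')).map fun x => x b') b) : Option F) ≠ some (S.E c h b)).card ≤
          dg (fun b v => eP S b v) R h := by
        refine le_dg fun b hb => ?_
        rw [mem_filter] at hb
        by_contra h6
        refine hb.2 ?_
        rw [hRok _ h6]
        simp
      convert (Nat.cast_le (α := ℝ)).2 this

end Vale.Agent.P330.W.H624
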