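import Vale.Agent.P330.W.H624.KitDefs
import Vale.Agent.P330.H985.Pub
import Vale.Agent.Lib.PolyTime.NatArith2
import Vale.Agent.Lib.PolyTime.Lists2

/-!
# The kit in polynomial time
-/

namespace Vale.Agent.P330.W.H624

open Function Vale.Agent.P330.H155
open Vale.Agent.Lib.PolyTime Vale.Agent.P330.H933 Vale.Agent.P330.H985

theorem tabG_eq {Γ : Type*} {D ng : ℕ} {β : Type*} (gE : Γ ≃ Fin ng) (f : Γ → Fin D → β)
    (h : ℕ → β) (hf : ∀ g b, f (gE.symm g) b = h (g * D + b)) :
    tabG gE f = (List.range ng).flatMap fun g => (List.range D).map fun b => h (g * D + b) := by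
  unfold tabG
  rw [← List.map_coe_finRange_eq_range (n := ng), List.flatMap_map]
  congr 1
  funext g
  rw [← List.map_coe_finRange_eq_range (n := D), List.map_map]
  refine List.map_congr_left fun b _ => ?_
  exact hf g b

section

variable {A : Set Word} {α : Type} [Enc α] {L ng : α → ℕ} {nJ nG D : ℕ} {Γ : α → Type}
  (gE : ∀ a, Γ a ≃ Fin (ng a)) (P : ∀ a, KP (Fl (L a)) (Fin nJ) (Fin nG) (Γ a) (Fin D))

/-- The tables are computable in polynomial time. -/
structure KPT (A : Set Word) (gE : ∀ a, Γ a ≃ Fin (ng a))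
    (P : ∀ a, KP (Fl (L a)) (Fin nJ) (Fin nG) (Γ a) (Fin D)) : Prop where
  ngp : PT A ng
  ngb : PBd ng
  M : PT A (fun a => (P a).M)
  Mb : PBd (fun a => (P a).M)
  κ : PT A (fun a => (P a).κ)
  κb : PBd (fun a => (P a).κ)
  Lw : PT A (fun a => (P a).Lw)
  Lwb : PBd (fun a => (P a).Lw)
  nP : PT A (fun a => (P a).nP)
  nPb : PBd (fun a => (P a).nP)
  ix : ∀ a g b, (P a).ix ((gE a).symm g) b = g * D + b
  dJ : PT A (fun q : α × ℕ => ((P q.1).dJ q.2 : ℕ))
  dG : PT A (fun q : α × ℕ => ((P q.1).dG q.2 : ℕ))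
  cG : PT A (fun q : α × ℕ => cod (L q.1) ((P q.1).cG q.2))
  be : PT A (fun q : α × ℕ × ℕ => cod (L q.1) ((P q.1).be q.2.1 q.2.2))
  dp : PT A (fun q : α × ℕ × ℕ × ℕ => cod (L q.1) ((P q.1).dp q.2.1 q.2.2.1 q.2.2.2))
  sr : PT A (fun q : α × ℕ => (P q.1).sr q.2)
  wz : PT A (fun q : α × ℕ => (P q.1).wz q.2)
  we : PT A (fun q : α × ℕ => (P q.1).we q.2)
  wv : PT A (fun q : α × ℕ => (P q.1).wv q.2)

namespace KPT

variable {gE P} (h : KPT A gE P)

include h

theorem R1 : PT A (fun a => (P a).R1) := PT.add h.Lw (PT.const 1)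

theorem R1b : PBd (fun a => (P a).R1) := h.Lwb.add (PBd.const 1)

theorem NS : PT A (fun a => (P a).NS) := PT.add (PT.const 1) (PT.mul h.κ h.R1)

theorem NSb : PBd (fun a => (P a).NS) := (PBd.const 1).add (h.κb.mul h.R1b)

theorem sT : PT A (fun a => (P a).sT) :=
  PT.add (PT.add h.NS h.Lw) (PT.mul h.nP (PT.add h.NS (PT.const 1)))

theorem sTb : PBd (fun a => (P a).sT) :=
  (h.NSb.add h.Lwb).add (h.nPb.mul (h.NSb.add (PBd.const 1)))

theorem sS : PT A (fun a => (P a).sS) := PT.add (PT.add h.sT (PT.const 1)) h.Lw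

theorem sSb : PBd (fun a => (P a).sS) := (h.sTb.add (PBd.const 1)).add h.Lwb

theorem sB : PT A (fun a => (P a).sB) := PT.add h.sS h.NS

theorem sBb : PBd (fun a => (P a).sB) := h.sSb.add h.NSb

theorem NL : PT A (fun a => (P a).NL) := PT.add h.sB h.Lw

theorem NLb : PBd (fun a => (P a).NL) := h.sBb.add h.Lwb

theorem rg {β : Type} [Enc β] {u : β → α} {n m : β → ℕ} (hu : PT A u) (hn : PT A n)
    (hm : PT A m) : PT A (fun b => (P (u b)).rg (n b) (m b)) :=
  PT.add (PT.add (PT.const 1) (PT.mul hn (h.M.comp hu))) hm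

end KPT

section dsc

variable {β : Type} [Enc β] (u : β → α) (m : β → ℕ)

/-- The instructions described by `d` are computable in polynomial time. -/
def DT (A : Set Word) (gE : ∀ a, Γ a ≃ Fin (ng a))
    (P : ∀ a, KP (Fl (L a)) (Fin nJ) (Fin nG) (Γ a) (Fin D)) (u : β → α) (m : β → ℕ)
    (d : β → Dsc) : Prop :=
  PT A (fun b => knOf (gE (u b)) ((P (u b)).insD (m b) (d b)))

namespace DT

variable {gE P u m} {d d' : β → Dsc}

omit [Enc α] in
theorem ite {p : β → Prop} [DecidablePred p] (hp : PT A (fun b => decide (p b)))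
    (h1 : DT A gE P u m d) (h2 : DT A gE P u m d') :
    DT A gE P u m (fun b => if p b then d b else d' b) :=
  (PT.ite hp h1 h2).congr fun b => by beta_reduce; split_ifs <;> rfl

variable (h : KPT A gE P) (hu : PT A u) (hm : PT A m)

include h hu hm

theorem u0 (c : Bool) : DT A gE P u m (fun _ => .u0 c) := by
  unfold DT
  cases c with
  | false =>
    have h1 : PT A (fun b => cod (L (u b)) ((P (u b)).cG (m b))) := h.cG.comp (hu.pair hm)
    refine ((PT.const 0).pair ((PT.const 0).pair ((PT.const 0).pair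
      ((PT.cons (h1.pair (PT.const 0)) PT.nil).pair (PT.const []))))).congr fun b => ?_
    rfl
  | true =>
    refine (PT.const ((0, 0, 0, [(1, 0)], []) : KN)).congr fun b => ?_
    change _ = (0, 0, 0, [(cod (L (u b)) 1, 0)], [])
    rw [cod_one]

theorem ch {t j n : β → ℕ} (ht : PT A t) (hj : PT A j) (hn : PT A n) (s : Bool) :
    DT A gE P u m (fun b => .ch (t b) (j b) (n b) s) := by
  have hum : PT A (fun b => (u b, m b)) := hu.pair hm
  have hw : PT A (fun b => (P (u b)).wt (t b) (m b)) := by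
    have e3 : PT A (fun b => (P (u b)).we (t b - 3)) :=
      h.we.comp (hu.pair (PT.sub ht (PT.const 3)))
    refine (PT.ite (PT.eqNat ht (PT.const 0)) (h.wz.comp hum)
      (PT.ite (PT.eqNat ht (PT.const 1)) (h.we.comp hum)
        (PT.ite (PT.eqNat ht (PT.const 2)) (h.wv.comp hum) e3))).congr fun b => ?_
    rfl
  have hlet : PT A (fun b => ((P (u b)).wt (t b) (m b)).getD (j b) (0, 0)) :=
    PT.getD hw hj (PT.const (0, 0))
  have hi : PT A (fun b => (P (u b)).rg (n b) (if s then (P (u b)).sr (m b) else m b)) := by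
    refine h.rg hu hn ?_
    cases s with
    | false => exact hm
    | true => exact h.sr.comp hum
  have hdJ : PT A (fun b => ((P (u b)).dJ (((P (u b)).wt (t b) (m b)).getD (j b) (0, 0)).2 : ℕ)) :=
    h.dJ.comp (hu.pair hlet.snd)
  have hdG : PT A (fun b => ((P (u b)).dG (((P (u b)).wt (t b) (m b)).getD (j b) (0, 0)).2 : ℕ)) :=
    h.dG.comp (hu.pair hlet.snd)
  refine (PT.ite (PT.eqNat hlet.fst (PT.const 1))
    ((PT.const 1).pair (hdJ.pair (hi.pair ((PT.const []).pair (PT.const [])))))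
    (PT.ite (PT.eqNat hlet.fst (PT.const 2))
      ((PT.const 2).pair (hdG.pair (hi.pair ((PT.const []).pair (PT.const [])))))
      ((PT.const 0).pair ((PT.const 0).pair ((PT.const 0).pair
        ((PT.cons ((PT.const 1).pair hi) PT.nil).pair (PT.const []))))))).congr fun b => ?_
  simp only [KP.insD, KP.insL]
  set w := ((P (u b)).wt (t b) (m b)).getD (j b) (0, 0)
  by_cases h1 : w.1 = 1
  · rw [if_pos h1, if_pos h1]
    rfl
  · rw [if_neg h1, if_neg h1]
    by_cases h2 : w.1 = 2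
    · rw [if_pos h2, if_pos h2]
      rfl
    · rw [if_neg h2, if_neg h2]
      change _ = (0, 0, 0, [(cod (L (u b)) 1, _)], [])
      rw [cod_one]

theorem add {n n' : β → ℕ} (hn : PT A n) (hn' : PT A n') :
    DT A gE P u m (fun b => .add (n b) (n' b)) := by
  have h1 := h.rg hu hn hm
  have h2 := h.rg hu hn' hm
  refine ((PT.const 0).pair ((PT.const 0).pair ((PT.const 0).pair
    ((PT.cons ((PT.const 1).pair h1) (PT.cons ((PT.const 1).pair h2) PT.nil)).pair
      (PT.const []))))).congr fun b => ?_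
  change _ = (0, 0, 0, [(cod (L (u b)) 1, _), (cod (L (u b)) 1, _)], [])
  rw [cod_one]

theorem rhsD {p n : β → ℕ} (hp : PT A p) (hn : PT A n) :
    DT A gE P u m (fun b => .rhsD (p b) (n b)) := by
  have hM : PT A (fun b => (P (u b)).M) := h.M.comp hu
  have hMb : PBd (fun b => (P (u b)).M) := PBd.comp (b := fun a => (P a).M) h.Mb hu
  have hr : PT A (fun b => List.range (P (u b)).M) := PT.range hM hMb
  have hfst : PT A (fun q : β × ℕ => u q.1) := hu.comp PT.fst'
  have h1 : PT A (fun q : β × ℕ => (P (u q.1)).rg (n q.1) q.2) :=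
    h.rg hfst (hn.comp PT.fst') PT.snd'
  have h2 : PT A (fun q : β × ℕ => cod (L (u q.1)) ((P (u q.1)).dp (p q.1) (m q.1) q.2)) :=
    h.dp.comp (hfst.pair ((hp.comp PT.fst').pair ((hm.comp PT.fst').pair PT.snd')))
  have h3 := PT.map hr (f := fun b i => (cod (L (u b)) ((P (u b)).dp (p b) (m b) i),
    (P (u b)).rg (n b) i)) (h2.pair h1)
  refine ((PT.const 0).pair ((PT.const 0).pair ((PT.const 0).pair
    (h3.pair (PT.const []))))).congr fun b => ?_
  simp only [KP.insD, knOf, List.map_map]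
  rfl

theorem comb {x y z : β → ℕ} (hx : PT A x) (hy : PT A y) (hz : PT A z) :
    DT A gE P u m (fun b => .comb (x b) (y b) (z b)) := by
  have hM : PT A (fun b => (P (u b)).M) := h.M.comp hu
  have hMb : PBd (fun b => (P (u b)).M) := PBd.comp (b := fun a => (P a).M) h.Mb hu
  have hr : PT A (fun b => List.range (P (u b)).M) := PT.range hM hMb
  have hfst : PT A (fun q : β × ℕ => u q.1) := hu.comp PT.fst'
  have h1 : PT A (fun q : β × ℕ => (P (u q.1)).rg (y q.1) q.2) :=
    h.rg hfst (hy.comp PT.fst') PT.snd'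
  have h2 : PT A (fun q : β × ℕ => cod (L (u q.1)) ((P (u q.1)).be (m q.1) q.2)) :=
    h.be.comp (hfst.pair ((hm.comp PT.fst').pair PT.snd'))
  have h3 : PT A (fun q : β × ℕ => (P (u q.1)).rg (z q.1) ((P (u q.1)).sr q.2)) :=
    h.rg hfst (hz.comp PT.fst') (h.sr.comp (hfst.pair PT.snd'))
  have h4 := PT.map hr (f := fun b i => (cod (L (u b)) ((P (u b)).be (m b) i),
    (P (u b)).rg (y b) i)) (h2.pair h1)
  have h5 := PT.map hr (f := fun b i => (cod (L (u b)) ((P (u b)).be (m b) i),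
    (P (u b)).rg (z b) ((P (u b)).sr i))) (h2.pair h3)
  have h6 := h.rg hu hx hm
  refine ((PT.const 0).pair ((PT.const 0).pair ((PT.const 0).pair
    ((PT.cons ((PT.const 1).pair h6) (PT.append h4 h5)).pair
      (PT.const []))))).congr fun b => ?_
  simp only [KP.insD, knOf, List.map_cons, List.map_append, List.map_map, cod_one]
  rfl

theorem t2 {p n : β → ℕ} (hp : PT A p) (hn : PT A n) :
    DT A gE P u m (fun b => .t2 (p b) (n b)) := by
  have hr : PT A (fun b => List.range (ng (u b))) :=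
    PT.range (h.ngp.comp hu) (PBd.comp (b := ng) h.ngb hu)
  have hfst : PT A (fun q : (β × ℕ) × ℕ => u q.1.1) := hu.comp (PT.fst'.comp PT.fst')
  have h1 : PT A (fun q : (β × ℕ) × ℕ => (P (u q.1.1)).rg (n q.1.1) (q.1.2 * D + q.2)) :=
    h.rg hfst (hn.comp (PT.fst'.comp PT.fst'))
      (PT.add (PT.mul (PT.snd'.comp PT.fst') (PT.const D)) PT.snd')
  have h2 : PT A (fun q : β × ℕ => (List.range D).map fun i =>
      (P (u q.1)).rg (n q.1) (q.2 * D + i)) :=
    PT.map (PT.const (List.range D)) (f := fun (q : β × ℕ) i =>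
      (P (u q.1)).rg (n q.1) (q.2 * D + i)) h1
  have h3 := PT.flatMap hr (f := fun b g => (List.range D).map fun i =>
      (P (u b)).rg (n b) (g * D + i)) h2
  refine ((PT.const 3).pair (hp.pair ((PT.const 0).pair ((PT.const []).pair h3)))).congr
    fun b => ?_
  simp only [KP.insD, knOf]
  rw [tabG_eq (gE (u b)) _ (fun i => (P (u b)).rg (n b) i) fun g c => by rw [h.ix]]

theorem chD {a t n j : β → ℕ} (ha : PT A a) (ht : PT A t) (hn : PT A n) (s : Bool)
    (hj : PT A j) : DT A gE P u m (fun b => KP.chD (a b) (t b) (n b) s (j b)) :=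
  ite (PT.eqNat hj (PT.const 0)) (ch h hu hm ht (PT.const 0) hn s)
    (ch h hu hm ht hj (PT.sub (PT.add ha hj) (PT.const 1)) false)

theorem solD {a i : β → ℕ} (ha : PT A a) (hi : PT A i) :
    DT A gE P u m (fun b => (P (u b)).solD (a b) (i b)) := by
  have hR := h.R1.comp hu
  have hq : PT A (fun b => i b / (P (u b)).R1) := PT.div hi hR
  have hr : PT A (fun b => i b % (P (u b)).R1) := PT.mod hi hR
  have h1 : PT A (fun b => i b / (P (u b)).R1 * (P (u b)).R1) := PT.mul hq hR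
  exact ite (PT.lt hr (h.Lw.comp hu))
    (chD h hu hm (PT.add (PT.add ha (PT.const 1)) h1) (PT.const 0) (PT.add ha h1) true hr)
    (comb h hu hm ha (PT.sub (PT.add ha (PT.mul (PT.add hq (PT.const 1)) hR)) (PT.const 1))
      (PT.add ha h1))

theorem sumD {a i : β → ℕ} (ha : PT A a) (hi : PT A i) :
    DT A gE P u m (fun b => (P (u b)).sumD (a b) (i b)) := by
  have hR := h.R1.comp hu
  have hq : PT A (fun b => i b / (P (u b)).R1) := PT.div hi hR
  have hr : PT A (fun b => i b % (P (u b)).R1) := PT.mod hi hR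
  have h1 : PT A (fun b => i b / (P (u b)).R1 * (P (u b)).R1) := PT.mul hq hR
  exact ite (PT.lt hr (h.Lw.comp hu))
    (chD h hu hm (PT.add (PT.add ha (PT.const 1)) h1) (PT.add (PT.const 3) hq)
      (PT.add ha h1) false hr)
    (add h hu hm (PT.add ha h1)
      (PT.sub (PT.add ha (PT.mul (PT.add hq (PT.const 1)) hR)) (PT.const 1)))

theorem ds {n : β → ℕ} (hn : PT A n) : DT A gE P u m (fun b => (P (u b)).ds (n b)) := by
  have hNS := h.NS.comp hu
  have hLw := h.Lw.comp hu
  have hsT := h.sT.comp hu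
  have hsS := h.sS.comp hu
  have hsB := h.sB.comp hu
  have h1 := PT.const (A := A) (α := β) 1
  have hNL : PT A (fun b => (P (u b)).NS + (P (u b)).Lw) := PT.add hNS hLw
  have hN1 : PT A (fun b => (P (u b)).NS + 1) := PT.add hNS h1
  have hk : PT A (fun b => n b - ((P (u b)).NS + (P (u b)).Lw)) := PT.sub hn hNL
  have hp : PT A (fun b => (n b - ((P (u b)).NS + (P (u b)).Lw)) / ((P (u b)).NS + 1)) :=
    PT.div hk hN1
  have hi : PT A (fun b => (n b - ((P (u b)).NS + (P (u b)).Lw)) % ((P (u b)).NS + 1)) :=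
    PT.mod hk hN1
  have ha : PT A (fun b => (P (u b)).NS + (P (u b)).Lw +
      (n b - ((P (u b)).NS + (P (u b)).Lw)) / ((P (u b)).NS + 1) * ((P (u b)).NS + 1)) :=
    PT.add hNL (PT.mul hp hN1)
  exact ite (PT.lt hn hNS)
    (ite (PT.eqNat hn (PT.const 0)) (u0 h hu hm false)
      (solD h hu hm (PT.const 0) (PT.sub hn h1)))
    (ite (PT.lt hn hNL)
      (chD h hu hm hNS (PT.const 0) (PT.sub hNS h1) true (PT.sub hn hNS))
      (ite (PT.lt hn hsT)
        (ite (PT.eqNat hi (PT.const 0)) (rhsD h hu hm hp (PT.sub hNL h1))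
          (ite (PT.eqNat hi hNS) (t2 h hu hm hp (PT.sub (PT.add ha hNS) h1))
            (solD h hu hm ha (PT.sub hi h1))))
        (ite (PT.lt hn hsS)
          (ite (PT.eqNat hn hsT) (u0 h hu hm true)
            (chD h hu hm (PT.add hsT h1) (PT.const 1) hsT false
              (PT.sub (PT.sub hn hsT) h1)))
          (ite (PT.lt hn hsB)
            (ite (PT.eqNat hn hsS) (u0 h hu hm true)
              (sumD h hu hm hsS (PT.sub (PT.sub hn hsS) h1)))
            (chD h hu hm hsB (PT.const 2) (PT.sub hNS h1) false (PT.sub hn hsB))))))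

end DT

end dsc

/-- **The kit in polynomial time.** -/
theorem PT_kit {gE : ∀ a, Γ a ≃ Fin (ng a)}
    {P : ∀ a, KP (Fl (L a)) (Fin nJ) (Fin nG) (Γ a) (Fin D)} (h : KPT A gE P) :
    PT A (fun a => (List.range ((P a).kit.KL - 1)).map fun k => knOf (gE a) ((P a).kit.ins k)) := by
  have h1 : PT A (fun a => (P a).kit.KL - 1) :=
    PT.sub (PT.add (PT.const 1) (PT.mul h.NL h.M)) (PT.const 1)
  have h2 : PBd (fun a => (P a).kit.KL - 1) :=
    ((PBd.const 1).add (h.NLb.mul h.Mb)).mono fun a => Nat.sub_le _ _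
  have hM : PT A (fun q : α × ℕ => (P q.1).M) := h.M.comp PT.fst'
  exact PT.map (PT.range h1 h2) (f := fun a k => knOf (gE a) ((P a).kit.ins k))
    (DT.ds (u := fun q : α × ℕ => q.1) (m := fun q : α × ℕ => q.2 % (P q.1).M) h PT.fst'
      (PT.mod PT.snd' hM) (PT.div PT.snd' hM))

theorem PT_iT {gE : ∀ a, Γ a ≃ Fin (ng a)}
    {P : ∀ a, KP (Fl (L a)) (Fin nJ) (Fin nG) (Γ a) (Fin D)} (h : KPT A gE P) {n : α → ℕ}
    (hn : PT A n) (hnb : PBd n) : PT A (fun a => (List.range (n a)).map (P a).kit.iT) :=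
  PT.map (PT.range hn hnb) (f := fun a j => (P a).kit.iT j)
    (h.rg PT.fst' ((PT.add h.sT h.Lw).comp PT.fst') PT.snd')

theorem PT_iM {gE : ∀ a, Γ a ≃ Fin (ng a)}
    {P : ∀ a, KP (Fl (L a)) (Fin nJ) (Fin nG) (Γ a) (Fin D)} (h : KPT A gE P) {n : α → ℕ}
    (hn : PT A n) (hnb : PBd n) : PT A (fun a => (List.range (n a)).map (P a).kit.iM) := by
  have hNS : PT A (fun q : α × ℕ => (P q.1).NS) := h.NS.comp PT.fst'
  exact PT.map (PT.range hn hnb) (f := fun a j => (P a).kit.iM j)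
    (h.rg PT.fst' (PT.add (PT.add (PT.add hNS (h.Lw.comp PT.fst'))
      (PT.mul PT.snd' (PT.add hNS (PT.const 1)))) hNS) (PT.const 0))

theorem PT_iS {gE : ∀ a, Γ a ≃ Fin (ng a)}
    {P : ∀ a, KP (Fl (L a)) (Fin nJ) (Fin nG) (Γ a) (Fin D)} (h : KPT A gE P) :
    PT A (fun a => (P a).kit.iS) :=
  h.rg PT.id (PT.sub h.sB (PT.const 1)) (PT.const 0)

/-- The table of the bundle. -/
theorem PT_iB {gE : ∀ a, Γ a ≃ Fin (ng a)}
    {P : ∀ a, KP (Fl (L a)) (Fin nJ) (Fin nG) (Γ a) (Fin D)} (h : KPT A gE P) :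
    PT A (fun a => tabG (gE a) (P a).kit.iB) := by
  have h1 : PT A (fun q : (α × ℕ) × ℕ => (P q.1.1).rg ((P q.1.1).NL - 1) (q.1.2 * D + q.2)) :=
    h.rg (PT.fst'.comp PT.fst') (PT.sub (h.NL.comp (PT.fst'.comp PT.fst')) (PT.const 1))
      (PT.add (PT.mul (PT.snd'.comp PT.fst') (PT.const D)) PT.snd')
  have h2 : PT A (fun q : α × ℕ => (List.range D).map fun i =>
      (P q.1).rg ((P q.1).NL - 1) (q.2 * D + i)) :=
    PT.map (PT.const (List.range D)) (f := fun (q : α × ℕ) i =>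
      (P q.1).rg ((P q.1).NL - 1) (q.2 * D + i)) h1
  refine (PT.flatMap (PT.range h.ngp h.ngb) (f := fun a g => (List.range D).map fun i =>
      (P a).rg ((P a).NL - 1) (g * D + i)) h2).congr fun a => ?_
  rw [tabG_eq (gE a) _ (fun i => (P a).rg ((P a).NL - 1) i) fun g c => by
    change (P a).rg _ ((P a).ix _ _) = _
    rw [h.ix]]

end

end Vale.Agent.P330.W.H624
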