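import Vale.Agent.P330.W.H624.KitLay
import Vale.Agent.P330.W.H624.KitOk

/-!
# The kit: values of the phases
-/

namespace Vale.Agent.P330.W.H624

open Finset Vale.Agent.P330.H155 Vale.Agent.P330.H16

section basis

theorem V2_add_add {κ : ℕ} (v w : V2 κ) : v + w + w = v := by
  funext i
  simp only [Pi.add_apply]
  rw [add_assoc, CharTwo.add_self_eq_zero, add_zero]

theorem e_self {κ k : ℕ} (hk : k < κ) : e κ k ⟨k, hk⟩ = 1 := by simp [e]

theorem e_ne {κ k : ℕ} {i : Fin κ} (h : (i : ℕ) ≠ k) : e κ k i = 0 := by simp [e, h]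

theorem sum_step {κ : ℕ} {F : Type*} [AddCommMonoid F] (f : V2 κ → F) {k : ℕ} (hk : k < κ) :
    ∑ v ∈ univ.filter (fun v : V2 κ => ∀ i : Fin κ, k + 1 ≤ i → v i = 0), f v =
      ∑ v ∈ univ.filter (fun v : V2 κ => ∀ i : Fin κ, k ≤ i → v i = 0), f v +
        ∑ v ∈ univ.filter (fun v : V2 κ => ∀ i : Fin κ, k ≤ i → v i = 0), f (v + e κ k) := by
  rw [← sum_filter_add_sum_filter_not _ (fun v : V2 κ => v ⟨k, hk⟩ = 0)]
  congr 1
  · refine sum_congr ?_ fun _ _ => rfl
    ext v
    simp only [mem_filter, mem_univ, true_and]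
    constructor
    · rintro ⟨h1, h2⟩ i hi
      rcases Nat.eq_or_lt_of_le hi with h3 | h3
      · have : i = ⟨k, hk⟩ := Fin.ext h3.symm
        rw [this, h2]
      · exact h1 i h3
    · intro h
      exact ⟨fun i hi => h i (by omega), h _ le_rfl⟩
  · refine sum_nbij' (fun v => v + e κ k) (fun v => v + e κ k) ?_ ?_ ?_ ?_ ?_
    · intro v hv
      simp only [mem_filter, mem_univ, true_and] at hv ⊢
      intro i hi
      rcases Nat.eq_or_lt_of_le hi with h3 | h3
      · have h4 : i = ⟨k, hk⟩ := Fin.ext h3.symm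
        rw [h4, Pi.add_apply, e_self]
        have h5 : ∀ a : ZMod 2, a ≠ 0 → a + 1 = 0 := by decide
        exact h5 _ hv.2
      · rw [Pi.add_apply, hv.1 i h3, e_ne (by omega), add_zero]
    · intro v hv
      simp only [mem_filter, mem_univ, true_and] at hv ⊢
      refine ⟨fun i hi => ?_, ?_⟩
      · rw [Pi.add_apply, hv i (by omega), e_ne (by omega), add_zero]
      · rw [Pi.add_apply, e_self, hv _ le_rfl]
        decide
    · intro v _; exact V2_add_add v _
    · intro v _; exact V2_add_add v _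
    · intro v _
      rw [V2_add_add]

/-- **The sum over the group**, by doubling. -/
theorem sum_basis {J F : Type*} [AddCommGroup J] [Fintype J] [AddCommMonoid F] {κ : ℕ}
    (ψ : J ≃+ V2 κ) (u : J → F) (S : ℕ → J → F) (h0 : S 0 = u)
    (hS : ∀ j < κ, ∀ x, S (j + 1) x = S j x + S j (x + ψ.symm (e κ j))) (x : J) :
    S κ x = ∑ y, u y := by
  have key : ∀ k ≤ κ, ∀ x, S k x =
      ∑ v ∈ univ.filter (fun v : V2 κ => ∀ i : Fin κ, k ≤ i → v i = 0), u (x + ψ.symm v) := by
    intro k
    induction k with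
    | zero =>
      intro _ x
      rw [h0, sum_eq_single (0 : V2 κ)]
      · simp
      · intro v hv hv0
        simp only [mem_filter, mem_univ, true_and] at hv
        exact absurd (funext fun i => hv i (Nat.zero_le _)) hv0
      · intro h
        exact absurd (by simp) h
    | succ k ih =>
      intro hk x
      rw [hS k hk, ih (by omega), ih (by omega), sum_step _ hk]
      congr 1
      refine sum_congr rfl fun v _ => ?_
      rw [map_add, add_assoc, add_comm (ψ.symm v)]
  rw [key κ le_rfl]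
  have h1 : (univ.filter (fun v : V2 κ => ∀ i : Fin κ, κ ≤ i → v i = 0)) = univ := by
    apply filter_true_of_mem
    intro v _ i hi
    exact absurd i.2 (by omega)
  rw [h1]
  exact Fintype.sum_equiv (ψ.symm.toEquiv.trans (Equiv.addLeft x)) _ _ fun v => rfl

end basis

theorem div_lem {c k j : ℕ} (h : j < c) : (k * c + j) / c = k := by
  rw [Nat.mul_comm, Nat.mul_add_div (by omega), Nat.div_eq_of_lt h, add_zero]

theorem mod_lem {c k j : ℕ} (h : j < c) : (k * c + j) % c = j := by
  rw [Nat.mul_comm, Nat.mul_add_mod, Nat.mod_eq_of_lt h]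

section rounds

variable {Γ B iJ iG F : Type} {P : KP F iJ iG Γ B}

theorem solD_round {a k : ℕ} (j : ℕ) (hj : j < P.Lw) :
    P.solD a (k * P.R1 + j) = KP.chD (a + 1 + k * P.R1) 0 (a + k * P.R1) true j := by
  have h1 := div_lem (c := P.R1) (k := k) (Nat.lt_succ_of_lt hj : j < P.R1)
  have h2 := mod_lem (c := P.R1) (k := k) (Nat.lt_succ_of_lt hj : j < P.R1)
  unfold KP.solD
  rw [h1, h2, if_pos hj]

theorem solD_end {a k : ℕ} :
    P.solD a (k * P.R1 + P.Lw) =
      .comb a (a + (k + 1) * P.R1 - 1) (a + k * P.R1) := by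
  have h1 := div_lem (c := P.R1) (k := k) (Nat.lt_succ_self P.Lw : P.Lw < P.R1)
  have h2 := mod_lem (c := P.R1) (k := k) (Nat.lt_succ_self P.Lw : P.Lw < P.R1)
  unfold KP.solD
  rw [h1, h2, if_neg (lt_irrefl _)]

theorem sumD_round {a k : ℕ} (j : ℕ) (hj : j < P.Lw) :
    P.sumD a (k * P.R1 + j) = KP.chD (a + 1 + k * P.R1) (3 + k) (a + k * P.R1) false j := by
  have h1 := div_lem (c := P.R1) (k := k) (Nat.lt_succ_of_lt hj : j < P.R1)
  have h2 := mod_lem (c := P.R1) (k := k) (Nat.lt_succ_of_lt hj : j < P.R1)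
  unfold KP.sumD
  rw [h1, h2, if_pos hj]

theorem sumD_end {a k : ℕ} :
    P.sumD a (k * P.R1 + P.Lw) = .add (a + k * P.R1) (a + (k + 1) * P.R1 - 1) := by
  have h1 := div_lem (c := P.R1) (k := k) (Nat.lt_succ_self P.Lw : P.Lw < P.R1)
  have h2 := mod_lem (c := P.R1) (k := k) (Nat.lt_succ_self P.Lw : P.Lw < P.R1)
  unfold KP.sumD
  rw [h1, h2, if_neg (lt_irrefl _)]

end rounds

section phases

variable {J Γ B iJ iG : Type} {F : Type} [AddCommGroup J] [Group Γ] [DistribMulAction Γ J]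
  [Field F] {P : KP F iJ iG Γ B} {g : Gen J Γ F iJ iG} {u : J → F} {R : ℕ → ℕ → J → F}

/-- The end of a chain. -/
theorem chain_val {a t n : ℕ} {s : Bool}
    (h : ∀ j < P.Lw, ∀ m < P.M, R (a + j) m = P.dval g u R m (KP.chD a t n s j)) (hL : 0 < P.Lw)
    {m : ℕ} (hm : m < P.M) (hw : (P.wt t m).length ≤ P.Lw) (x : J) :
    R (a + P.Lw - 1) m x =
      R n (if s then P.sr m else m) (ptW g.sJ g.gG P.dJ P.dG (P.wt t m) x) := by
  have key : ∀ k < P.Lw, ∀ x, R (a + k) m x = R n (if s then P.sr m else m)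
      (ptW g.sJ g.gG P.dJ P.dG
        ((List.range (k + 1)).map fun j => (P.wt t m).getD j (0, 0)) x) := by
    intro k
    induction k with
    | zero =>
      intro hk x
      rw [h 0 hk m hm]
      rfl
    | succ k ih =>
      intro hk x
      rw [h (k + 1) hk m hm]
      have h1 : KP.chD a t n s (k + 1) = .ch t (k + 1) (a + k) false := by
        unfold KP.chD
        rw [if_neg (by omega)]
        rfl
      rw [h1]
      change R (a + k) m (ptL g.sJ g.gG P.dJ P.dG ((P.wt t m).getD (k + 1) (0, 0)) x) = _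
      rw [ih (by omega), List.range_succ (n := k + 1), List.map_append, List.map_singleton,
        ptW_append]
  have := key (P.Lw - 1) (by omega) x
  rw [show a + (P.Lw - 1) = a + P.Lw - 1 by omega, show P.Lw - 1 + 1 = P.Lw by omega] at this
  rw [this, ptW_pad _ _ hw]

variable [Fintype Γ] [Fintype B]

omit [Group Γ] [Field F] in
theorem sum_range_en [AddCommMonoid F] {q : ℕ} (en : Fin q ≃ Γ × B) (f : ℕ → F) :
    ∑ i ∈ range q, f i = ∑ m : Γ × B, f (en.symm m).val := by
  rw [Finset.sum_range]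
  exact (Equiv.sum_comp en.symm (fun i : Fin q => f i)).symm

variable [Algebra (ZMod 2) F] [DecidableEq Γ] [DecidableEq B] {κ q : ℕ} {ψ : J ≃+ V2 κ}
  {en : Fin q ≃ Γ × B} {bet : B → J} {η : B → Γ} {P0 P1 : Submodule (ZMod 2) (B → ZMod 2)}
  {B1 B2 : Finset B} {eps : F} {b0 : B}

theorem KP.OK.lt (hO : P.OK g ψ en bet η P0 P1 B1 B2 eps) (m : Γ × B) :
    (en.symm m).val < P.M := by
  rw [hO.M_eq]
  exact (en.symm m).2

theorem KP.OK.sr_lt (hO : P.OK g ψ en bet η P0 P1 B1 B2 eps) (i : ℕ) (hi : i < P.M) :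
    P.sr i < P.M := by
  have h1 : i < q := by rw [← hO.M_eq]; exact hi
  have h2 := hO.sr (en ⟨i, h1⟩)
  rw [Equiv.symm_apply_apply] at h2
  rw [h2]
  exact hO.lt _

/-- The rounds. -/
theorem sol_val (hO : P.OK g ψ en bet η P0 P1 B1 B2 eps) {a : ℕ}
    (h : ∀ i < P.κ * P.R1, ∀ m < P.M, R (a + 1 + i) m = P.dval g u R m (P.solD a i)) :
    ∀ k ≤ P.κ, ∀ m : Γ × B, R (a + k * P.R1) (en.symm m).val =
      (rnd (beta η P0 P1 B1 B2 eps) (srcB η) (zB bet η)
        (fun i => R a (en.symm i).val))^[k + 1] 0 m := by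
  intro k
  induction k with
  | zero =>
    intro _ m
    funext x
    simp [rnd]
  | succ k ih =>
    intro hk m
    have ih := ih (by omega)
    have hR : P.R1 = P.Lw + 1 := rfl
    have h1 : (k + 1) * P.R1 ≤ P.κ * P.R1 := Nat.mul_le_mul_right _ hk
    have h2 : (k + 1) * P.R1 = k * P.R1 + P.R1 := Nat.succ_mul _ _
    have hch : ∀ (m : Γ × B) x, R (a + (k + 1) * P.R1 - 1) (en.symm m).val x =
        R (a + k * P.R1) (en.symm (srcB η m)).val (x + zB bet η m) := by
      intro m x
      have h3 := chain_val (P := P) (g := g) (u := u) (R := R) (a := a + 1 + k * P.R1) (t := 0)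
        (n := a + k * P.R1) (s := true) (fun j hj m' hm' => by
          have h4 := h (k * P.R1 + j) (by omega) m' hm'
          rw [solD_round j hj] at h4
          rw [show a + 1 + k * P.R1 + j = a + 1 + (k * P.R1 + j) by omega]
          exact h4) hO.Lw_pos (hO.lt m) (hO.wz_len m) x
      rw [show a + 1 + k * P.R1 + P.Lw - 1 = a + (k + 1) * P.R1 - 1 by omega] at h3
      rw [h3, if_pos rfl, hO.sr]
      have h5 : P.wt 0 (en.symm m).val = P.wz (en.symm m).val := rfl
      rw [h5, hO.wz]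
    have h6 := h (k * P.R1 + P.Lw) (by omega) _ (hO.lt m)
    rw [solD_end] at h6
    rw [show a + (k + 1) * P.R1 = a + 1 + (k * P.R1 + P.Lw) by omega, h6]
    funext x
    rw [Function.iterate_succ_apply']
    simp only [KP.dval]
    rw [hO.M_eq, sum_range_en en]
    unfold rnd
    congr 1
    refine sum_congr rfl fun i _ => ?_
    rw [hO.be, hch i x, hO.sr i, ih]
    rfl

variable [Fintype J]

/-- The result of the rounds. -/
theorem sol_eq (hO : P.OK g ψ en bet η P0 P1 B1 B2 eps) {a : ℕ}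
    (h : ∀ i < P.κ * P.R1, ∀ m < P.M, R (a + 1 + i) m = P.dval g u R m (P.solD a i))
    {r y : Γ × B → J → F} (hr : ∀ i, R a (en.symm i).val = r i)
    (hy : rnd (beta η P0 P1 B1 B2 eps) (srcB η) (zB bet η) r y = y) (m : Γ × B) :
    R (a + P.κ * P.R1) (en.symm m).val = y m := by
  rw [sol_val hO h P.κ le_rfl m]
  have h1 : (fun i => R a (en.symm i).val) = r := funext hr
  have h2 : ∀ x : J, x + x = 0 := by
    intro x
    apply ψ.injective
    rw [map_add, map_zero]
    have := V2_add_add (0 : V2 κ) (ψ x)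
    rwa [zero_add] at this
  have h3 : Fintype.card J ≤ 2 ^ P.κ := by
    rw [Fintype.card_congr ψ.toEquiv]
    simp [hO.κ_eq, ZMod.card]
  rw [h1, iter_eq h2 (add_self_F F) h3 hy]

end phases

end Vale.Agent.P330.W.H624
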