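import Mathlib

/-!
# Expander mixing, exact links and closure sets

The vertices are the elements of `W`; every vertex `w` has the neighbours `nb b w`, `b : B`
(a multiset).  `Mix nb n lam` is the mixing property: the number of pairs `(w, b)` with `w ∈ S` and
`nb b w ∈ T` is at most `|B| (|S| |T| / n + lam √(|S| |T|))`.
-/

namespace Vale.Agent.P330.TAN

open Finset

section defs

variable {W B : Type*} [Fintype B]

open Classical in
/-- The number of edges from `w` to `T`. -/
noncomputable def dg (nb : B → W → W) (T : Finset W) (w : W) : ℕ :=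
  (univ.filter fun b => nb b w ∈ T).card

/-- The number of edges from `S` to `T`. -/
noncomputable def ec (nb : B → W → W) (S T : Finset W) : ℕ := ∑ w ∈ S, dg nb T w

/-- Mixing. -/
def Mix (nb : B → W → W) (n lam : ℝ) : Prop :=
  ∀ S T : Finset W, (ec nb S T : ℝ) ≤
    Fintype.card B * ((S.card : ℝ) * T.card / n + lam * √((S.card : ℝ) * T.card))

theorem dg_le (nb : B → W → W) (T : Finset W) (w : W) : dg nb T w ≤ Fintype.card B := by
  unfold dg
  exact card_le_univ _

theorem dg_mono (nb : B → W → W) {T T' : Finset W} (h : T ⊆ T') (w : W) :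
    dg nb T w ≤ dg nb T' w := by
  classical
  unfold dg
  exact card_le_card fun b hb => by
    simp only [mem_filter, mem_univ, true_and] at hb ⊢
    exact h hb

theorem ec_mono (nb : B → W → W) {S S' T T' : Finset W} (hS : S ⊆ S') (hT : T ⊆ T') :
    ec nb S T ≤ ec nb S' T' := by
  unfold ec
  calc ∑ w ∈ S, dg nb T w ≤ ∑ w ∈ S, dg nb T' w := sum_le_sum fun w _ => dg_mono nb hT w
    _ ≤ ∑ w ∈ S', dg nb T' w := sum_le_sum_of_subset hS

theorem le_dg {nb : B → W → W} {T : Finset W} {w : W} {s : Finset B}
    (h : ∀ b ∈ s, nb b w ∈ T) : s.card ≤ dg nb T w := by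
  classical
  unfold dg
  refine card_le_card fun b hb => ?_
  rw [mem_filter]
  exact ⟨mem_univ _, h b hb⟩

theorem dg_congr {W' : Type*} {nb : B → W → W} {nb' : B → W' → W'} {T : Finset W}
    {T' : Finset W'} {w : W} {w' : W'} (h : ∀ b, nb b w ∈ T ↔ nb' b w' ∈ T') :
    dg nb T w = dg nb' T' w' := by
  classical
  unfold dg
  congr 1
  ext b
  rw [mem_filter, mem_filter]
  simp [h b]

theorem dg_union_le [DecidableEq W] (nb : B → W → W) (T T' : Finset W) (w : W) :
    dg nb (T ∪ T') w ≤ dg nb T w + dg nb T' w := by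
  classical
  unfold dg
  refine le_trans (card_le_card ?_) (card_union_le _ _)
  intro b hb
  simp only [mem_filter, mem_univ, true_and, mem_union] at hb ⊢
  exact hb

end defs

section core

variable {W B : Type*} [Fintype B] [Nonempty B] {nb : B → W → W} {n lam : ℝ}

theorem cardB_pos : (0 : ℝ) < Fintype.card B := by
  exact_mod_cast Fintype.card_pos

/-- **Core lemma.** If every element of `S` has at least `δ |B|` edges to `T` and `T` has at most
`(δ / 2) n` elements, then `|S| ≤ (2 lam / δ) ^ 2 |T|`. -/
theorem Mix.core (h : Mix nb n lam) (hn : 0 < n) {δ : ℝ} (hδ : 0 < δ) {S T : Finset W}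
    (hS : ∀ w ∈ S, δ * Fintype.card B ≤ dg nb T w) (hT : (T.card : ℝ) ≤ δ / 2 * n) :
    (S.card : ℝ) ≤ (2 * lam / δ) ^ 2 * T.card := by
  have hB : (0 : ℝ) < Fintype.card B := cardB_pos
  rcases S.eq_empty_or_nonempty with rfl | hne
  · simp only [card_empty, CharP.cast_eq_zero]
    positivity
  have hs : (0 : ℝ) < S.card := by exact_mod_cast hne.card_pos
  have h1 : δ * Fintype.card B * S.card ≤ ec nb S T := by
    unfold ec
    push_cast
    calc δ * Fintype.card B * S.card = ∑ w ∈ S, δ * (Fintype.card B : ℝ) := by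
          rw [sum_const, nsmul_eq_mul]; ring
      _ ≤ ∑ w ∈ S, (dg nb T w : ℝ) := sum_le_sum hS
  have h2 := h S T
  have h3 : δ * S.card ≤ (S.card : ℝ) * T.card / n + lam * √((S.card : ℝ) * T.card) := by
    have h4 : (Fintype.card B : ℝ) * (δ * S.card) ≤
        Fintype.card B * ((S.card : ℝ) * T.card / n + lam * √((S.card : ℝ) * T.card)) := by
      calc (Fintype.card B : ℝ) * (δ * S.card) = δ * Fintype.card B * S.card := by ring
        _ ≤ _ := h1.trans h2
    exact le_of_mul_le_mul_left h4 hB
  have h5 : (S.card : ℝ) * T.card / n ≤ δ / 2 * S.card := by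
    rw [div_le_iff₀ hn]
    calc (S.card : ℝ) * T.card ≤ S.card * (δ / 2 * n) := by gcongr
      _ = _ := by ring
  have h6 : δ / 2 * S.card ≤ lam * √((S.card : ℝ) * T.card) := by linarith
  have h7 : (δ / 2 * S.card) ^ 2 ≤ (lam * √((S.card : ℝ) * T.card)) ^ 2 :=
    pow_le_pow_left₀ (by positivity) h6 2
  rw [mul_pow, mul_pow, Real.sq_sqrt (by positivity)] at h7
  have h8 : (δ / 2) ^ 2 * S.card ≤ lam ^ 2 * T.card := by
    have : (S.card : ℝ) * ((δ / 2) ^ 2 * S.card) ≤ S.card * (lam ^ 2 * T.card) := by
      calc (S.card : ℝ) * ((δ / 2) ^ 2 * S.card) = (δ / 2) ^ 2 * (S.card : ℝ) ^ 2 := by ring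
        _ ≤ _ := h7
        _ = _ := by ring
    exact le_of_mul_le_mul_left this hs
  rw [div_pow, div_mul_eq_mul_div, le_div_iff₀ (by positivity)]
  calc (S.card : ℝ) * δ ^ 2 = 4 * ((δ / 2) ^ 2 * S.card) := by ring
    _ ≤ 4 * (lam ^ 2 * T.card) := by gcongr
    _ = _ := by ring

open Classical in
/-- **Exact link.** If outside the set `bad` every wrong vertex has at least `δ |B|` wrong
neighbours, then the number of wrong vertices is at most `|bad| / (1 - (2 lam / δ) ^ 2)`. -/
theorem Mix.link (h : Mix nb n lam) (hn : 0 < n) {δ : ℝ} (hδ : 0 < δ) {err bad : Finset W}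
    (hS : ∀ w ∈ err, w ∉ bad → δ * Fintype.card B ≤ dg nb err w)
    (hT : (err.card : ℝ) ≤ δ / 2 * n) :
    (1 - (2 * lam / δ) ^ 2) * (err.card : ℝ) ≤ bad.card := by
  have h1 : ((err \ bad).card : ℝ) ≤ (2 * lam / δ) ^ 2 * err.card :=
    h.core hn hδ (fun w hw => hS w (mem_sdiff.1 hw).1 (mem_sdiff.1 hw).2) hT
  have h2 : (err.card : ℝ) ≤ (err \ bad).card + bad.card := by
    have : err.card ≤ (err \ bad).card + bad.card := by
      calc err.card ≤ ((err \ bad) ∪ bad).card := by
            apply card_le_card
            intro w hw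
            by_cases hb : w ∈ bad
            · exact mem_union_right _ hb
            · exact mem_union_left _ (mem_sdiff.2 ⟨hw, hb⟩)
        _ ≤ _ := card_union_le _ _
    exact_mod_cast this
  linarith

/-- A small set of vertices, all of which have many neighbours in the set, is empty. -/
theorem Mix.eq_empty (h : Mix nb n lam) {δ : ℝ} {S : Finset W}
    (hS : ∀ w ∈ S, δ * Fintype.card B ≤ dg nb S w) (hc : (S.card : ℝ) / n + lam < δ) :
    S = ∅ := by
  by_contra hne
  have hne : S.Nonempty := nonempty_iff_ne_empty.2 hne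
  have hB : (0 : ℝ) < Fintype.card B := cardB_pos
  have hs : (0 : ℝ) < S.card := by exact_mod_cast hne.card_pos
  have h1 : δ * Fintype.card B * S.card ≤ ec nb S S := by
    unfold ec
    push_cast
    calc δ * Fintype.card B * S.card = ∑ w ∈ S, δ * (Fintype.card B : ℝ) := by
          rw [sum_const, nsmul_eq_mul]; ring
      _ ≤ ∑ w ∈ S, (dg nb S w : ℝ) := sum_le_sum hS
  have h2 := h S S
  rw [Real.sqrt_mul_self hs.le] at h2
  have h3 : (Fintype.card B : ℝ) * S.card * δ ≤
      (Fintype.card B : ℝ) * S.card * ((S.card : ℝ) / n + lam) := by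
    calc (Fintype.card B : ℝ) * S.card * δ = δ * Fintype.card B * S.card := by ring
      _ ≤ _ := h1.trans h2
      _ = _ := by ring
  have h4 := le_of_mul_le_mul_left h3 (by positivity)
  linarith

/-- The set `S` is closed for the threshold `θ`. -/
def Closed (nb : B → W → W) (θ : ℝ) (S : Finset W) : Prop :=
  ∀ w, θ * Fintype.card B ≤ dg nb S w → w ∈ S

/-- **Closure.** For a symmetric neighbour relation every set `bad` is contained in a closed set of
size at most `C |bad|`, provided `|bad|` is small. -/
theorem Mix.exists_closed [Finite W] (h : Mix nb n lam) (hn : 0 < n)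
    {θ C : ℝ} (hθ : 0 < θ) (hC : 1 < C) (bad : Finset W)
    (hc : ((C + 1) * bad.card) / n + lam < θ * (1 - 1 / C)) :
    ∃ S : Finset W, bad ⊆ S ∧ (S.card : ℝ) ≤ C * bad.card ∧ Closed nb θ S := by
  classical
  have := Fintype.ofFinite W
  have hB : (0 : ℝ) < Fintype.card B := cardB_pos
  rcases bad.eq_empty_or_nonempty with rfl | hbne
  · refine ⟨∅, subset_rfl, by simp, ?_⟩
    intro w hw
    exfalso
    have : dg nb ∅ w = 0 := by
      unfold dg
      simp
    rw [this] at hw
    have : 0 < θ * Fintype.card B := by positivity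
    simp only [CharP.cast_eq_zero] at hw
    linarith
  -- the sets which are reached
  let P : Finset W → Prop := fun S =>
    bad ⊆ S ∧ (S.card : ℝ) ≤ C * bad.card ∧
      θ * Fintype.card B * ((S.card : ℝ) - bad.card) ≤ ec nb S S
  have hP0 : P bad := by
    refine ⟨subset_rfl, ?_, ?_⟩
    · have : (0 : ℝ) ≤ bad.card := by positivity
      nlinarith
    · simp
  obtain ⟨S, hS, hmax⟩ := exists_max_image (univ.filter P) (fun S : Finset W => S.card)
    ⟨bad, by simpa using hP0⟩
  simp only [mem_filter, mem_univ, true_and] at hS hmax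
  refine ⟨S, hS.1, hS.2.1, ?_⟩
  intro w hw
  by_contra hwS
  have hb1 : (1 : ℝ) ≤ bad.card := by exact_mod_cast hbne.card_pos
  set S' := insert w S with hS'
  have hcard : S'.card = S.card + 1 := card_insert_of_notMem hwS
  have hcardR : (S'.card : ℝ) = S.card + 1 := by rw [hcard]; push_cast; ring
  have hec : ec nb S S + dg nb S w ≤ ec nb S' S' := by
    have hsub : S ⊆ S' := subset_insert _ _
    unfold ec
    rw [hS', sum_insert hwS, add_comm]
    exact add_le_add (dg_mono nb hsub w) (sum_le_sum fun v _ => dg_mono nb hsub v)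
  have hinv : θ * Fintype.card B * ((S'.card : ℝ) - bad.card) ≤ ec nb S' S' := by
    have h1 : ((ec nb S S + dg nb S w : ℕ) : ℝ) ≤ ec nb S' S' := by exact_mod_cast hec
    push_cast at h1
    rw [hcardR]
    calc θ * Fintype.card B * ((S.card : ℝ) + 1 - bad.card)
        = θ * Fintype.card B * ((S.card : ℝ) - bad.card) + θ * Fintype.card B := by ring
      _ ≤ ec nb S S + dg nb S w := add_le_add hS.2.2 hw
      _ ≤ _ := h1
  have hbad' : bad ⊆ S' := hS.1.trans (subset_insert _ _)
  by_cases hle : (S'.card : ℝ) ≤ C * bad.card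
  · have := hmax S' ⟨hbad', hle, hinv⟩
    omega
  · push Not at hle
    have hs' : (0 : ℝ) < S'.card := by rw [hcardR]; positivity
    have h2 := h S' S'
    rw [Real.sqrt_mul_self hs'.le] at h2
    have h3 : (S'.card : ℝ) ≤ (C + 1) * bad.card := by
      rw [hcardR]; nlinarith [hS.2.1]
    have h4 : (bad.card : ℝ) ≤ 1 / C * S'.card := by
      rw [div_mul_eq_mul_div, le_div_iff₀ (by linarith), one_mul]
      linarith
    have h5 : θ * (1 - 1 / C) * (Fintype.card B * S'.card) ≤
        ((S'.card : ℝ) / n + lam) * (Fintype.card B * S'.card) := by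
      calc θ * (1 - 1 / C) * (Fintype.card B * S'.card)
          = θ * Fintype.card B * ((S'.card : ℝ) - 1 / C * S'.card) := by ring
        _ ≤ θ * Fintype.card B * ((S'.card : ℝ) - bad.card) := by gcongr
        _ ≤ _ := hinv
        _ ≤ _ := h2
        _ = _ := by ring
    have h6 := le_of_mul_le_mul_right h5 (by positivity)
    have h7 : (S'.card : ℝ) / n ≤ ((C + 1) * bad.card) / n := by gcongr
    linarith

open Classical in
/-- **One closure set for all registers.** If `cl` is closed for the threshold `θ < δ` and contains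
the bad vertices, `err` is small and outside the bad vertices every wrong vertex has at least
`δ |B|` wrong neighbours, then all wrong vertices are in `cl`. -/
theorem Mix.err_subset (h : Mix nb n lam) (hn : 0 < n) {δ θ : ℝ} {err cl : Finset W}
    (hcl : Closed nb θ cl) (hS : ∀ w ∈ err, w ∉ cl → δ * Fintype.card B ≤ dg nb err w)
    (hc : (err.card : ℝ) / n + lam < δ - θ) : err ⊆ cl := by
  have h0 : err \ cl = ∅ := by
    refine h.eq_empty (δ := δ - θ) ?_ ?_
    · intro w hw
      obtain ⟨hw1, hw2⟩ := mem_sdiff.1 hw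
      have h1 := hS w hw1 hw2
      have h2 : (dg nb cl w : ℝ) < θ * Fintype.card B := by
        by_contra h3
        push Not at h3
        exact hw2 (hcl w h3)
      have h3 : (dg nb err w : ℝ) ≤ dg nb (err \ cl) w + dg nb cl w := by
        have : dg nb err w ≤ dg nb (err \ cl) w + dg nb cl w := by
          refine le_trans (dg_mono nb ?_ w) (dg_union_le nb _ _ w)
          intro v hv
          by_cases hb : v ∈ cl
          · exact mem_union_right _ hb
          · exact mem_union_left _ (mem_sdiff.2 ⟨hv, hb⟩)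
        exact_mod_cast this
      linarith
    · have : ((err \ cl).card : ℝ) / n ≤ err.card / n := by
        gcongr
        exact sdiff_subset
      linarith
  exact sdiff_eq_empty_iff_subset.1 h0

end core

end Vale.Agent.P330.TAN
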