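import Vale.Agent.P330.W.H624.Mix

/-!
# The mixing property from the spectral gap

`SpecGap e lam`: for functions with sum `0` the operator `f ↦ (1 / |B|) ∑ b, f (e b v)` has norm at
most `lam`.  We get the mixing property for the neighbours `e b`, for the inverse neighbours, for
the bipartite double cover `Bool × V` and for the two directions of a product.
-/

namespace Vale.Agent.P330.TAN

open Finset

variable {V B : Type*} [Fintype V] [Fintype B]

/-- The spectral hypothesis. -/
def SpecGap (e : B → V ≃ V) (lam : ℝ) : Prop :=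
  ∀ f : V → ℝ, ∑ v, f v = 0 →
    ∑ v, (∑ b, f (e b v)) ^ 2 ≤ (lam * Fintype.card B) ^ 2 * ∑ v, f v ^ 2

theorem SpecGap.symm {e : B → V ≃ V} {lam : ℝ} (h : SpecGap e lam) :
    SpecGap (fun b => (e b).symm) lam := by
  intro f hf
  set g : V → ℝ := fun v => ∑ b, f ((e b).symm v) with hg
  have hg0 : ∑ v, g v = 0 := by
    simp only [hg]
    rw [sum_comm]
    have : ∀ b, ∑ v, f ((e b).symm v) = 0 := fun b => by
      rw [Equiv.sum_comp (e b).symm f, hf]
    simp [this]
  have h1 := h g hg0
  have h2 : ∑ v, g v ^ 2 = ∑ v, f v * ∑ b, g (e b v) := by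
    calc ∑ v, g v ^ 2 = ∑ v, ∑ b, f ((e b).symm v) * g v := by
          refine sum_congr rfl fun v _ => ?_
          rw [sq, ← sum_mul]
      _ = ∑ b, ∑ v, f ((e b).symm v) * g v := sum_comm
      _ = ∑ b, ∑ v, f v * g (e b v) := by
          refine sum_congr rfl fun b _ => ?_
          rw [← Equiv.sum_comp (e b) fun v => f ((e b).symm v) * g v]
          simp
      _ = ∑ v, ∑ b, f v * g (e b v) := sum_comm
      _ = _ := by
          refine sum_congr rfl fun v _ => ?_
          rw [mul_sum]
  have h3 : (∑ v, g v ^ 2) ^ 2 ≤ (∑ v, f v ^ 2) * ∑ v, (∑ b, g (e b v)) ^ 2 := by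
    rw [h2]
    exact sum_mul_sq_le_sq_mul_sq _ _ _
  have hG : 0 ≤ ∑ v, g v ^ 2 := sum_nonneg fun v _ => sq_nonneg _
  have hF : 0 ≤ ∑ v, f v ^ 2 := sum_nonneg fun v _ => sq_nonneg _
  rcases hG.eq_or_lt with h0 | h0
  · change ∑ v, g v ^ 2 ≤ _
    rw [← h0]
    positivity
  · have h4 : (∑ v, g v ^ 2) * (∑ v, g v ^ 2) ≤
        ((lam * Fintype.card B) ^ 2 * ∑ v, f v ^ 2) * ∑ v, g v ^ 2 := by
      calc (∑ v, g v ^ 2) * (∑ v, g v ^ 2) = (∑ v, g v ^ 2) ^ 2 := by ring
        _ ≤ (∑ v, f v ^ 2) * ∑ v, (∑ b, g (e b v)) ^ 2 := h3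
        _ ≤ (∑ v, f v ^ 2) * ((lam * Fintype.card B) ^ 2 * ∑ v, g v ^ 2) := by gcongr
        _ = _ := by ring
    exact le_of_mul_le_mul_right h4 h0

open Classical in
theorem ec_eq_sum (e : B → V ≃ V) (S T : Finset V) :
    (ec (fun b v => e b v) S T : ℝ) =
      ∑ v, (if v ∈ S then 1 else 0) * ∑ b, (if e b v ∈ T then (1 : ℝ) else 0) := by
  unfold ec dg
  push_cast
  rw [← sum_filter_add_sum_filter_not univ (· ∈ S)]
  rw [sum_eq_zero (s := univ.filter (· ∉ S))]
  · rw [add_zero]
    rw [filter_mem_eq_inter, univ_inter]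
    refine sum_congr rfl fun v hv => ?_
    rw [if_pos hv, one_mul, sum_boole]
  · intro v hv
    rw [if_neg (by simpa using hv), zero_mul]

/-- **Mixing** from the spectral gap. -/
theorem SpecGap.mix {e : B → V ≃ V} {lam : ℝ} (hlam : 0 ≤ lam) (h : SpecGap e lam) :
    Mix (fun b v => e b v) (Fintype.card V) lam := by
  classical
  intro S T
  rcases isEmpty_or_nonempty V with hV | hV
  · have hS : S = ∅ := Subsingleton.elim _ _
    subst hS
    simp [ec]
  have hn : (0 : ℝ) < Fintype.card V := by exact_mod_cast Fintype.card_pos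
  rw [ec_eq_sum]
  set n : ℝ := ((Fintype.card V : ℕ) : ℝ) with hn'
  set t : ℝ := T.card / n with ht
  set f : V → ℝ := fun v => (if v ∈ T then (1 : ℝ) else 0) - t with hf
  have hsumT : ∑ v, (if v ∈ T then (1 : ℝ) else 0) = T.card := by
    rw [sum_boole]
    simp
  have hsumS : ∑ v, (if v ∈ S then (1 : ℝ) else 0) = S.card := by
    rw [sum_boole]
    simp
  have hf0 : ∑ v, f v = 0 := by
    simp only [hf]
    rw [sum_sub_distrib, hsumT, sum_const, card_univ, nsmul_eq_mul, ht]
    field_simp
    ring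
  have hf2 : ∑ v, f v ^ 2 ≤ T.card := by
    have h1 : ∑ v, f v ^ 2 = ∑ v, ((if v ∈ T then (1 : ℝ) else 0) -
        2 * t * (if v ∈ T then (1 : ℝ) else 0) + t ^ 2) := by
      refine sum_congr rfl fun v _ => ?_
      simp only [hf]
      split_ifs <;> ring
    rw [h1, sum_add_distrib, sum_sub_distrib, ← mul_sum, hsumT, sum_const, card_univ,
      nsmul_eq_mul]
    have h2 : t * n = T.card := by rw [ht]; field_simp
    have h3 : (T.card : ℝ) - 2 * t * T.card + n * t ^ 2 = T.card - t * T.card := by
      rw [← h2]; ring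
    rw [← hn', h3]
    have : 0 ≤ t * (T.card : ℝ) := by positivity
    linarith
  have h1 : ∀ v, ∑ b, (if e b v ∈ T then (1 : ℝ) else 0) =
      Fintype.card B * t + ∑ b, f (e b v) := by
    intro v
    simp only [hf]
    rw [sum_sub_distrib, sum_const, card_univ, nsmul_eq_mul]
    ring
  have h2 : ∑ v, (if v ∈ S then (1 : ℝ) else 0) * ∑ b, (if e b v ∈ T then (1 : ℝ) else 0) =
      Fintype.card B * t * S.card + ∑ v, (if v ∈ S then (1 : ℝ) else 0) * ∑ b, f (e b v) := by
    rw [← hsumS, mul_sum, ← sum_add_distrib]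
    refine sum_congr rfl fun v _ => ?_
    rw [h1 v]
    ring
  rw [h2]
  have h3 : (∑ v, (if v ∈ S then (1 : ℝ) else 0) * ∑ b, f (e b v)) ^ 2 ≤
      (S.card : ℝ) * ((lam * Fintype.card B) ^ 2 * T.card) := by
    calc (∑ v, (if v ∈ S then (1 : ℝ) else 0) * ∑ b, f (e b v)) ^ 2
        ≤ (∑ v, (if v ∈ S then (1 : ℝ) else 0) ^ 2) * ∑ v, (∑ b, f (e b v)) ^ 2 :=
          sum_mul_sq_le_sq_mul_sq _ _ _
      _ = (S.card : ℝ) * ∑ v, (∑ b, f (e b v)) ^ 2 := by
          rw [← hsumS]
          congr 1
          refine sum_congr rfl fun v _ => ?_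
          split_ifs <;> norm_num
      _ ≤ (S.card : ℝ) * ((lam * Fintype.card B) ^ 2 * T.card) := by
          gcongr
          exact (h f hf0).trans (by gcongr)
  have h4 : ∑ v, (if v ∈ S then (1 : ℝ) else 0) * ∑ b, f (e b v) ≤
      Fintype.card B * lam * √((S.card : ℝ) * T.card) := by
    refine le_of_sq_le_sq ?_ (by positivity)
    rw [mul_pow, Real.sq_sqrt (by positivity)]
    exact h3.trans (le_of_eq (by ring))
  calc Fintype.card B * t * S.card + ∑ v, (if v ∈ S then (1 : ℝ) else 0) * ∑ b, f (e b v)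
      ≤ Fintype.card B * t * S.card + Fintype.card B * lam * √((S.card : ℝ) * T.card) := by
        gcongr
    _ = _ := by rw [ht]; ring

/-! ### The bipartite double cover -/

/-- Neighbours in the bipartite graph with two copies of `V`. -/
def bnb (e : B → V ≃ V) (b : B) : Bool × V → Bool × V
  | (false, v) => (true, e b v)
  | (true, v) => (false, (e b).symm v)

omit [Fintype V] [Fintype B] in
theorem bnb_bnb (e : B → V ≃ V) (b : B) (w : Bool × V) : bnb e b (bnb e b w) = w := by
  rcases w with ⟨_ | _, v⟩ <;> simp [bnb]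

theorem card_bool_split [DecidableEq V] (S : Finset (Bool × V)) :
    S.card = (univ.filter fun v => (false, v) ∈ S).card +
      (univ.filter fun v => (true, v) ∈ S).card := by
  have h1 : S.card = ∑ w : Bool × V, if w ∈ S then 1 else 0 := by
    rw [sum_boole]
    simp
  rw [h1, Fintype.sum_prod_type, Fintype.sum_bool, sum_boole, sum_boole, add_comm]
  simp

theorem SpecGap.mix_bnb {e : B → V ≃ V} {lam : ℝ} (hlam : 0 ≤ lam) (h : SpecGap e lam) :
    Mix (bnb e) (Fintype.card V) lam := by
  classical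
  intro S T
  set S0 := univ.filter fun v => (false, v) ∈ S with hS0
  set S1 := univ.filter fun v => (true, v) ∈ S with hS1
  set T0 := univ.filter fun v => (false, v) ∈ T with hT0
  set T1 := univ.filter fun v => (true, v) ∈ T with hT1
  have hec : ec (bnb e) S T = ec (fun b v => e b v) S0 T1 + ec (fun b v => (e b).symm v) S1 T0 := by
    unfold ec
    have h1 : ∑ w ∈ S, dg (bnb e) T w = ∑ w : Bool × V, if w ∈ S then dg (bnb e) T w else 0 := by
      rw [sum_ite_mem, univ_inter]
    rw [h1, Fintype.sum_prod_type, Fintype.sum_bool, add_comm, hS0, hS1, sum_filter, sum_filter]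
    congr 1
    · refine sum_congr rfl fun v _ => ?_
      congr 1
      exact dg_congr fun b => by simp [bnb, hT1]
    · refine sum_congr rfl fun v _ => ?_
      congr 1
      exact dg_congr fun b => by simp [bnb, hT0]
  have h1 := h.mix hlam S0 T1
  have h2 := h.symm.mix hlam S1 T0
  have hS : (S.card : ℝ) = S0.card + S1.card := by exact_mod_cast card_bool_split S
  have hT : (T.card : ℝ) = T0.card + T1.card := by exact_mod_cast card_bool_split T
  rw [hec]
  push_cast
  have h3 : √((S0.card : ℝ) * T1.card) + √((S1.card : ℝ) * T0.card) ≤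
      √((S.card : ℝ) * T.card) := by
    refine Real.le_sqrt_of_sq_le ?_
    rw [hS, hT, add_sq, Real.sq_sqrt (by positivity), Real.sq_sqrt (by positivity)]
    have h4 : 2 * √((S0.card : ℝ) * T1.card) * √((S1.card : ℝ) * T0.card) ≤
        S0.card * T0.card + S1.card * T1.card := by
      have h5 : √((S0.card : ℝ) * T1.card) * √((S1.card : ℝ) * T0.card) =
          √((S0.card : ℝ) * T0.card) * √((S1.card : ℝ) * T1.card) := by
        rw [← Real.sqrt_mul (by positivity), ← Real.sqrt_mul (by positivity)]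
        congr 1
        ring
      have h6 := two_mul_le_add_sq (√((S0.card : ℝ) * T0.card)) (√((S1.card : ℝ) * T1.card))
      rw [Real.sq_sqrt (by positivity), Real.sq_sqrt (by positivity)] at h6
      rw [mul_assoc, h5, ← mul_assoc]
      exact h6
    nlinarith [h4]
  have hn : (0 : ℝ) ≤ Fintype.card V := by positivity
  have h7 : (S0.card : ℝ) * T1.card / Fintype.card V + (S1.card : ℝ) * T0.card / Fintype.card V ≤
      (S.card : ℝ) * T.card / Fintype.card V := by
    rw [← add_div]
    gcongr
    rw [hS, hT]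
    have : (0 : ℝ) ≤ S0.card * T0.card := by positivity
    have : (0 : ℝ) ≤ S1.card * T1.card := by positivity
    nlinarith
  calc _ ≤ Fintype.card B * ((S0.card : ℝ) * T1.card / Fintype.card V +
        lam * √((S0.card : ℝ) * T1.card)) +
        Fintype.card B * ((S1.card : ℝ) * T0.card / Fintype.card V +
        lam * √((S1.card : ℝ) * T0.card)) := add_le_add h1 h2
    _ = Fintype.card B * (((S0.card : ℝ) * T1.card / Fintype.card V +
        (S1.card : ℝ) * T0.card / Fintype.card V) +
        lam * (√((S0.card : ℝ) * T1.card) + √((S1.card : ℝ) * T0.card))) := by ring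
    _ ≤ _ := by gcongr

end Vale.Agent.P330.TAN
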